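import Vale.Agent.P154.CertSound
import Vale.Agent.P154.DataI11
import Vale.Agent.P154.DataI12
import Vale.Agent.P154.DataI22
import Vale.Agent.P154.DataII11
import Vale.Agent.P154.DataII12
import Vale.Agent.P154.DataII22

/-!
The six certificates as inequalities over the reals.
-/

namespace Vale.Agent.P154

open NPoly

variable {S : Type} [CommRing S] (ρ : ℕ → S)

lemma ev_expr11 (two : Bool) :
    ev ρ (expr11 two W.k vX vY vZ vV).v =
      expr11 two (fun n => (n : S)) (ρ 0) (ρ 1) (ρ 2) (ρ 3) := by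
  cases two <;>
    simp only [expr11, Bool.false_eq_true, if_false, if_true, certI, certII, nS, denS, mS, uS,
      cS, dS, jS, duS, pS, omS, lS, aR1, tR1, aR2, tR2, ev_Wadd, ev_Wmul, ev_Wsub, ev_Wk,
      ev_vX, ev_vY, ev_vZ, ev_vV]

lemma ev_expr12 (two : Bool) :
    ev ρ (expr12 two W.k vX vY vZ vV).v =
      expr12 two (fun n => (n : S)) (ρ 0) (ρ 1) (ρ 2) (ρ 3) := by
  cases two <;>
    simp only [expr12, Bool.false_eq_true, if_false, if_true, certI, certII, nS, denS, mS, uS,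
      cS, dS, jS, duS, pS, omS, lS, aR1, tR1, aR2, tR2, ev_Wadd, ev_Wmul, ev_Wsub, ev_Wk,
      ev_vX, ev_vY, ev_vZ, ev_vV]

lemma ev_expr22 (two : Bool) :
    ev ρ (expr22 two W.k vX vY vZ vV).v =
      expr22 two (fun n => (n : S)) (ρ 0) (ρ 1) (ρ 2) (ρ 3) := by
  cases two <;>
    simp only [expr22, Bool.false_eq_true, if_false, if_true, certI, certII, nS, denS, mS, uS,
      cS, dS, jS, duS, pS, omS, lS, aR1, tR1, aR2, tR2, ev_Wadd, ev_Wmul, ev_Wsub, ev_Wk,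
      ev_vX, ev_vY, ev_vZ, ev_vV]

/-- An expression usable over every ring-like type. -/
abbrev GenExpr : Type 1 :=
  ∀ {S : Type} [Add S] [Mul S] [Sub S], (ℤ → S) → S → S → S → S → S

lemma cert_nonneg (E : GenExpr) (e0 e1 e2 e3 : ℕ) (C : P4)
    (h : certOK E (kpt e0 e1 e2 e3) C = true)
    (hev : ∀ {S : Type} [CommRing S] (ρ : ℕ → S),
      ev ρ (E W.k vX vY vZ vV).v = E (fun n => (n : S)) (ρ 0) (ρ 1) (ρ 2) (ρ 3))
    (hr : (E Bd.k Bd.X Bd.Y Bd.Z Bd.V).r = E W.k vX vY vZ vV)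
    (hb : ∀ ρ, (E Bd.k Bd.X Bd.Y Bd.Z Bd.V).b ρ =
      (E (fun n => (⟨|n|⟩ : Ab)) ⟨ρ 0⟩ ⟨ρ 1⟩ ⟨ρ 2⟩ ⟨ρ 3⟩).v)
    (x y z v : ℝ) (hx : 0 ≤ x ∧ x ≤ 1) (hy : 0 ≤ y ∧ y ≤ 1) (hz : 0 ≤ z ∧ z ≤ 1)
    (hv : 0 ≤ v ∧ v ≤ 1) : 0 ≤ E (fun n => (n : ℝ)) x y z v := by
  simp only [certOK, Bool.and_eq_true, decide_eq_true_eq] at h
  obtain ⟨⟨h1, h2⟩, h3⟩ := h
  let σ : ℕ → ℝ := fun i => if i = 0 then x else if i = 1 then y else if i = 2 then z else v
  have hσ : ∀ i < 4, 0 ≤ σ i ∧ σ i ≤ 1 := by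
    intro i _; simp only [σ]; split_ifs <;> assumption
  have := cert_sound (E Bd.k Bd.X Bd.Y Bd.Z Bd.V).r (E Bd.k Bd.X Bd.Y Bd.Z Bd.V).b
    (E Bd.k Bd.X Bd.Y Bd.Z Bd.V).h e0 e1 e2 e3 C (by rw [hr, hev]; simpa using h1) h2
    (by
      intro k hk
      simp only [List.all_eq_true, List.mem_range, decide_eq_true_eq] at h3
      rw [hb]; exact h3 k hk) σ hσ
  rw [hr, hev] at this
  simpa [σ] using this

variable (x y z v : ℝ) (hx : 0 ≤ x ∧ x ≤ 1) (hy : 0 ≤ y ∧ y ≤ 1) (hz : 0 ≤ z ∧ z ≤ 1)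
  (hv : 0 ≤ v ∧ v ≤ 1)

include hx hy hz hv

theorem certI11_nonneg : 0 ≤ expr11 false (fun n => (n : ℝ)) x y z v :=
  cert_nonneg (fun {S} [Add S] [Mul S] [Sub S] => expr11 false) _ _ _ _ _ okI11
    (fun {S} [CommRing S] ρ => ev_expr11 ρ false) rfl (fun _ => rfl) x y z v hx hy hz hv

theorem certI12_nonneg : 0 ≤ expr12 false (fun n => (n : ℝ)) x y z v :=
  cert_nonneg (fun {S} [Add S] [Mul S] [Sub S] => expr12 false) _ _ _ _ _ okI12
    (fun {S} [CommRing S] ρ => ev_expr12 ρ false) rfl (fun _ => rfl) x y z v hx hy hz hv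

theorem certI22_nonneg : 0 ≤ expr22 false (fun n => (n : ℝ)) x y z v :=
  cert_nonneg (fun {S} [Add S] [Mul S] [Sub S] => expr22 false) _ _ _ _ _ okI22
    (fun {S} [CommRing S] ρ => ev_expr22 ρ false) rfl (fun _ => rfl) x y z v hx hy hz hv

theorem certII11_nonneg : 0 ≤ expr11 true (fun n => (n : ℝ)) x y z v :=
  cert_nonneg (fun {S} [Add S] [Mul S] [Sub S] => expr11 true) _ _ _ _ _ okII11
    (fun {S} [CommRing S] ρ => ev_expr11 ρ true) rfl (fun _ => rfl) x y z v hx hy hz hv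

theorem certII12_nonneg : 0 ≤ expr12 true (fun n => (n : ℝ)) x y z v :=
  cert_nonneg (fun {S} [Add S] [Mul S] [Sub S] => expr12 true) _ _ _ _ _ okII12
    (fun {S} [CommRing S] ρ => ev_expr12 ρ true) rfl (fun _ => rfl) x y z v hx hy hz hv

theorem certII22_nonneg : 0 ≤ expr22 true (fun n => (n : ℝ)) x y z v :=
  cert_nonneg (fun {S} [Add S] [Mul S] [Sub S] => expr22 true) _ _ _ _ _ okII22
    (fun {S} [CommRing S] ρ => ev_expr22 ρ true) rfl (fun _ => rfl) x y z v hx hy hz hv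

end Vale.Agent.P154
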