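import Vale.Agent.P154.CertApply

/-!
The certificate polynomials are nonnegative on the whole range of the invariants of a
three-coordinate probability vector.
-/

namespace Vale.Agent.P154

/-- Range of `(a, t) = (2A, 4T)`. -/
structure InDom (a t : ℝ) : Prop where
  nonneg : 0 ≤ a
  le_four : a ≤ 4
  sq_le : t ^ 2 ≤ a ^ 3
  prod_nonneg : 0 ≤ 4 - 3 * a + t

lemma dom_param {a t : ℝ} (h : InDom a t) :
    ∃ x y : ℝ, (0 ≤ x ∧ x ≤ 1) ∧ (0 ≤ y ∧ y ≤ 1) ∧
      ((a = aR1 x ∧ t = tR1 (fun n => (n : ℝ)) x y) ∨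
       (a = aR2 (fun n => (n : ℝ)) x ∧ t = tR2 (fun n => (n : ℝ)) x y)) := by
  obtain ⟨r, hr0, rfl⟩ : ∃ r : ℝ, 0 ≤ r ∧ a = r * r :=
    ⟨Real.sqrt a, Real.sqrt_nonneg a, (Real.mul_self_sqrt h.nonneg).symm⟩
  have habs : |t| ≤ r ^ 3 := by
    refine abs_le_of_sq_le_sq ?_ (by positivity)
    calc t ^ 2 ≤ (r * r) ^ 3 := h.sq_le
      _ = (r ^ 3) ^ 2 := by ring
  obtain ⟨htl, hth⟩ := abs_le.mp habs
  have hr2 : r ≤ 2 := by nlinarith [h.le_four]
  by_cases hr1 : r ≤ 1
  · by_cases hr : r = 0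
    · subst hr
      refine ⟨0, 0, by norm_num, by norm_num, Or.inl ?_⟩
      norm_num at htl hth ⊢
      constructor
      · simp [aR1]
      · simp [tR1]; linarith
    · have h3 : 0 < r ^ 3 := by positivity
      refine ⟨r, (t / r ^ 3 + 1) / 2, ⟨hr0, hr1⟩, ⟨?_, ?_⟩, Or.inl ⟨rfl, ?_⟩⟩
      · have : -1 ≤ t / r ^ 3 := by rw [le_div_iff₀ h3]; linarith
        linarith
      · have : t / r ^ 3 ≤ 1 := by rw [div_le_one h3]; exact hth
        linarith
      · simp only [tR1]; push_cast; field_simp; ring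
  · push Not at hr1
    have hlo : 3 * (r * r) - 4 ≤ t := by linarith [h.prod_nonneg]
    by_cases hr : r = 2
    · subst hr
      refine ⟨1, 0, by norm_num, by norm_num, Or.inr ?_⟩
      constructor
      · simp [aR2]; norm_num
      · simp [tR2]; norm_num at hlo hth ⊢; linarith
    · have hlt : r < 2 := lt_of_le_of_ne hr2 hr
      have hg : 0 < (1 - (r - 1)) * (1 - (r - 1)) * (2 + (r - 1)) := by
        have : 0 < 1 - (r - 1) := by linarith
        have : 0 < 2 + (r - 1) := by linarith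
        positivity
      refine ⟨r - 1, (t - (3 * (r * r) - 4)) / ((1 - (r - 1)) * (1 - (r - 1)) * (2 + (r - 1))),
        ⟨by linarith, by linarith⟩, ⟨div_nonneg (by linarith) hg.le, ?_⟩, Or.inr ⟨?_, ?_⟩⟩
      · rw [div_le_one hg]; nlinarith
      · simp only [aR2]; push_cast; ring
      · simp only [tR2]; push_cast
        generalize hY : (t - (3 * (r * r) - 4)) /
          ((1 - (r - 1)) * (1 - (r - 1)) * (2 + (r - 1))) = Y
        have := hY
        rw [div_eq_iff hg.ne'] at this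
        linear_combination this

lemma certI_comm (a t b s : ℝ) :
    certI (fun n => (n : ℝ)) a t b s = certI (fun n => (n : ℝ)) b s a t := by
  simp only [certI, nS, denS, mS, uS, cS, dS, jS, duS, pS, omS]; ring

lemma certII_comm (a t b s : ℝ) :
    certII (fun n => (n : ℝ)) a t b s = certII (fun n => (n : ℝ)) b s a t := by
  simp only [certII, nS, denS, mS, uS, cS, dS, jS, duS, pS, omS, lS]; ring

theorem certI_nonneg {a t b s : ℝ} (h : InDom a t) (h' : InDom b s) :
    0 ≤ certI (fun n => (n : ℝ)) a t b s := by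
  obtain ⟨x, y, hx, hy, hxy⟩ := dom_param h
  obtain ⟨z, v, hz, hv, hzv⟩ := dom_param h'
  rcases hxy with ⟨rfl, rfl⟩ | ⟨rfl, rfl⟩ <;> rcases hzv with ⟨rfl, rfl⟩ | ⟨rfl, rfl⟩
  · simpa [expr11] using certI11_nonneg x y z v hx hy hz hv
  · simpa [expr12] using certI12_nonneg x y z v hx hy hz hv
  · rw [certI_comm]; simpa [expr12] using certI12_nonneg z v x y hz hv hx hy
  · simpa [expr22] using certI22_nonneg x y z v hx hy hz hv

theorem certII_nonneg {a t b s : ℝ} (h : InDom a t) (h' : InDom b s) :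
    0 ≤ certII (fun n => (n : ℝ)) a t b s := by
  obtain ⟨x, y, hx, hy, hxy⟩ := dom_param h
  obtain ⟨z, v, hz, hv, hzv⟩ := dom_param h'
  rcases hxy with ⟨rfl, rfl⟩ | ⟨rfl, rfl⟩ <;> rcases hzv with ⟨rfl, rfl⟩ | ⟨rfl, rfl⟩
  · simpa [expr11] using certII11_nonneg x y z v hx hy hz hv
  · simpa [expr12] using certII12_nonneg x y z v hx hy hz hv
  · rw [certII_comm]; simpa [expr12] using certII12_nonneg z v x y hz hv hx hy
  · simpa [expr22] using certII22_nonneg x y z v hx hy hz hv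

end Vale.Agent.P154
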