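import Vale.Agent.P154.Kernel3

/-!
Symmetric countable channels with a three-valued input, their functionals, and how these behave
under scaling and combination.
-/

namespace Vale.Agent.P154

/-- A channel: likelihood vectors indexed by the possible observations, symmetric under
permutations of the three inputs. -/
structure Chan where
  ι : Type
  V : ι → Fin 3 → ℝ
  nonneg : ∀ y i, 0 ≤ V y i
  total : ∀ i, HasSum (fun y => V y i) 1
  sym : ∀ π : Equiv.Perm (Fin 3), ∃ e : ι ≃ ι, ∀ y i, V (e y) i = V y (π i)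

/-- Every observation has all likelihoods positive, or all zero. -/
def Chan.PZ (C : Chan) : Prop := ∀ y, (∀ i, 0 < C.V y i) ∨ C.V y = 0

/-- A functional dominated by the total mass. -/
def Adm (F : (Fin 3 → ℝ) → ℝ) : Prop :=
  ∃ c : ℝ, ∀ L : Fin 3 → ℝ, (∀ i, 0 ≤ L i) → |F L| ≤ c * pP L

/-- Sum of a functional over a channel. -/
noncomputable def Chan.E (C : Chan) (F : (Fin 3 → ℝ) → ℝ) : ℝ := ∑' y, F (C.V y)

lemma pP_nonneg {L : Fin 3 → ℝ} (h : ∀ i, 0 ≤ L i) : 0 ≤ pP L := by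
  have := h 0; have := h 1; have := h 2
  unfold pP; positivity

lemma le_three_pP {L : Fin 3 → ℝ} (h : ∀ i, 0 ≤ L i) (i : Fin 3) : L i ≤ 3 * pP L := by
  have := h 0; have := h 1; have := h 2
  fin_cases i <;> simp [pP] <;> linarith

lemma Chan.hasSum_pP (C : Chan) : HasSum (fun y => pP (C.V y)) 1 := by
  have := ((C.total 0).add (C.total 1)).add (C.total 2)
  simpa [pP, show ((1 + 1 + 1 : ℝ) / 3) = 1 by norm_num] using this.div_const 3

lemma Chan.summable {F : (Fin 3 → ℝ) → ℝ} (C : Chan) (hF : Adm F) :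
    Summable fun y => F (C.V y) := by
  obtain ⟨c, hc⟩ := hF
  refine Summable.of_norm_bounded (C.hasSum_pP.summable.mul_left c) fun y => ?_
  exact hc _ (C.nonneg y)

lemma fB_eq (L : Fin 3 → ℝ) : fB L =
    ((L 0 - L 1) ^ 2 + (L 0 - L 2) ^ 2 + (L 1 - L 2) ^ 2) / (9 * pP L) := by
  by_cases h : pP L = 0
  · simp [fB, h]
  · rw [fB, div_sub' h, div_eq_div_iff h (by positivity)]
    simp only [pP]; ring

lemma fB_nonneg {L : Fin 3 → ℝ} (h : ∀ i, 0 ≤ L i) : 0 ≤ fB L := by
  rw [fB_eq]; have := pP_nonneg h; positivity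

lemma adm_pP : Adm pP := ⟨1, fun L h => by rw [abs_of_nonneg (pP_nonneg h), one_mul]⟩

lemma adm_fB : Adm fB := ⟨2, fun L h => by
  rw [abs_of_nonneg (fB_nonneg h)]
  have := h 0; have := h 1; have := h 2
  by_cases hp : pP L = 0
  · simp [fB, hp]
  · have hpos : 0 < pP L := lt_of_le_of_ne (pP_nonneg h) (Ne.symm hp)
    rw [fB, sub_le_iff_le_add, div_le_iff₀ hpos]
    simp only [pP]
    nlinarith [mul_nonneg (h 0) (h 1), mul_nonneg (h 0) (h 2), mul_nonneg (h 1) (h 2)]⟩

lemma prTerm_bounds {a b : ℝ} (ha : 0 ≤ a) (hb : 0 ≤ b) :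
    0 ≤ prTerm a b ∧ prTerm a b ≤ a + b := by
  constructor
  · unfold prTerm; positivity
  · unfold prTerm
    rcases (add_nonneg ha hb).lt_or_eq with h | h
    · rw [div_le_iff₀ h]; nlinarith
    · simp [← h]

lemma fL_bounds {L : Fin 3 → ℝ} (h : ∀ i, 0 ≤ L i) : 0 ≤ fL L ∧ fL L ≤ 2 * pP L := by
  obtain ⟨a1, a2⟩ := prTerm_bounds (h 0) (h 1)
  obtain ⟨b1, b2⟩ := prTerm_bounds (h 0) (h 2)
  obtain ⟨c1, c2⟩ := prTerm_bounds (h 1) (h 2)
  have := pP_nonneg h
  constructor
  · unfold fL; positivity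
  · simp only [fL, pP] at *; linarith

lemma adm_fL : Adm fL := ⟨2, fun L h => by
  rw [abs_of_nonneg (fL_bounds h).1]; exact (fL_bounds h).2⟩

lemma adm_fP : Adm fP := by
  obtain ⟨c, hc⟩ := adm_fB
  obtain ⟨d, hd⟩ := adm_fL
  exact ⟨c + d, fun L h => by
    unfold fP
    calc |fB L - fL L| ≤ |fB L| + |fL L| := abs_sub _ _
      _ ≤ c * pP L + d * pP L := add_le_add (hc L h) (hd L h)
      _ = (c + d) * pP L := by ring⟩

lemma fH_bounds {L : Fin 3 → ℝ} (h : ∀ i, 0 ≤ L i) : 0 ≤ fH L ∧ fH L ≤ pP L := by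
  have h0 := h 0; have h1 := h 1; have h2 := h 2
  have hp := pP_nonneg h
  refine ⟨by unfold fH; positivity, ?_⟩
  rcases hp.lt_or_eq with hpos | hz
  · rw [fH, div_le_iff₀ (by positivity)]
    simp only [pP]
    nlinarith [mul_nonneg h0 (sq_nonneg (L 1 - L 2)), mul_nonneg h1 (sq_nonneg (L 0 - L 2)),
      mul_nonneg h2 (sq_nonneg (L 0 - L 1)),
      mul_nonneg (add_nonneg (add_nonneg h0 h1) h2) (sq_nonneg (L 0 - L 1)),
      mul_nonneg (add_nonneg (add_nonneg h0 h1) h2) (sq_nonneg (L 0 - L 2)),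
      mul_nonneg (add_nonneg (add_nonneg h0 h1) h2) (sq_nonneg (L 1 - L 2))]
  · simp [fH, ← hz]

lemma adm_fH : Adm fH := ⟨1, fun L h => by
  rw [abs_of_nonneg (fH_bounds h).1, one_mul]; exact (fH_bounds h).2⟩

lemma fG_bounds {L : Fin 3 → ℝ} (h : ∀ i, 0 ≤ L i) : 0 ≤ fG L ∧ fG L ≤ pP L := by
  have := fH_bounds h
  unfold fG; constructor <;> linarith

lemma adm_fG : Adm fG := ⟨1, fun L h => by
  rw [abs_of_nonneg (fG_bounds h).1, one_mul]; exact (fG_bounds h).2⟩

lemma fB_smul (c : ℝ) (L : Fin 3 → ℝ) : fB (fun i => c * L i) = c * fB L := by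
  by_cases hc : c = 0
  · simp [fB, pP, hc]
  · rw [fB_eq, fB_eq, show pP (fun i => c * L i) = c * pP L by simp [pP]; ring, ← mul_div_assoc]
    by_cases hp : pP L = 0
    · simp [hp]
    · rw [div_eq_div_iff (by positivity) (by positivity)]; ring

lemma fP_smul (c : ℝ) (L : Fin 3 → ℝ) : fP (fun i => c * L i) = c * fP L := by
  have key : ∀ a b : ℝ, prTerm (c * a) (c * b) = c * prTerm a b := by
    intro a b
    by_cases hc : c = 0
    · simp [prTerm, hc]
    · by_cases hab : a + b = 0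
      · simp [prTerm, ← mul_add, hab]
      · rw [prTerm, prTerm, ← mul_add, ← mul_div_assoc, div_eq_div_iff (by positivity) hab]
        ring
  simp only [fP, fB_smul, fL, key]; ring

/-- The Potts kernel applied to a likelihood vector. -/
noncomputable def mixv (lam : ℝ) (L : Fin 3 → ℝ) : Fin 3 → ℝ :=
  fun i => lam * L i + (1 - lam) * pP L

lemma pP_mixv (lam : ℝ) (L : Fin 3 → ℝ) : pP (mixv lam L) = pP L := by
  simp [mixv, pP]; ring

lemma fB_mixv (lam : ℝ) (L : Fin 3 → ℝ) : fB (mixv lam L) = lam ^ 2 * fB L := by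
  rw [fB_eq, fB_eq, pP_mixv, ← mul_div_assoc]
  congr 1
  simp only [mixv]; ring

lemma fP_mixv {lam : ℝ} (h0 : 0 ≤ lam) (h1 : lam ≤ 1) {L : Fin 3 → ℝ} (hL : ∀ i, 0 ≤ L i) :
    lam ^ 3 * fP L ≤ fP (mixv lam L) := by
  rcases (pP_nonneg hL).lt_or_eq with hpos | hz
  swap
  · have e : ∀ i, L i = 0 := fun i => by
      have := le_three_pP hL i; have := hL i; linarith
    simp [fP, fB, fL, mixv, prTerm, pP, e]
  have key : ∀ a b : ℝ, 0 ≤ a → 0 ≤ b →
      lam ^ 3 * ((a - b) ^ 2 / pP L - 2 * prTerm a b) ≤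
        (lam * (a - b)) ^ 2 / pP L -
          2 * prTerm (lam * a + (1 - lam) * pP L) (lam * b + (1 - lam) * pP L) := by
    intro a b ha hb
    have hP : prTerm (lam * a + (1 - lam) * pP L) (lam * b + (1 - lam) * pP L) =
        (lam * (a - b)) ^ 2 / (lam * (a + b) + (1 - lam) * (2 * pP L)) := by
      unfold prTerm; congr 1 <;> ring
    rw [hP, prTerm]
    rcases eq_or_ne a b with rfl | hab
    · simp
    have hs : 0 < a + b := by
      rcases (add_nonneg ha hb).lt_or_eq with h | h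
      · exact h
      · exact absurd (by linarith : a = b) hab
    rcases h0.lt_or_eq with hl | hl
    · have hs' : 0 < lam * (a + b) + (1 - lam) * (2 * pP L) := by
        have := mul_pos hl hs
        have := mul_nonneg (sub_nonneg.mpr h1) (mul_nonneg zero_le_two hpos.le)
        linarith
      generalize pP L = P at hpos hs' ⊢
      generalize hD : lam * (a + b) + (1 - lam) * (2 * P) = D at hs' ⊢
      have e : (lam * (a - b)) ^ 2 / P - 2 * ((lam * (a - b)) ^ 2 / D)
          - lam ^ 3 * ((a - b) ^ 2 / P - 2 * ((a - b) ^ 2 / (a + b)))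
          = lam ^ 3 * (a - b) ^ 2 * (a + b - 2 * P) ^ 2 * (1 - lam) / (P * (a + b) * D) := by
        field_simp
        rw [← hD]
        ring
      have : 0 ≤ lam ^ 3 * (a - b) ^ 2 * (a + b - 2 * P) ^ 2 * (1 - lam) / (P * (a + b) * D) := by
        have : 0 ≤ 1 - lam := by linarith
        positivity
      linarith
    · simp [← hl]
  have k01 := key _ _ (hL 0) (hL 1)
  have k02 := key _ _ (hL 0) (hL 2)
  have k12 := key _ _ (hL 1) (hL 2)
  have e1 : fP L = 1 / 9 * (((L 0 - L 1) ^ 2 / pP L - 2 * prTerm (L 0) (L 1))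
      + ((L 0 - L 2) ^ 2 / pP L - 2 * prTerm (L 0) (L 2))
      + ((L 1 - L 2) ^ 2 / pP L - 2 * prTerm (L 1) (L 2))) := by
    rw [fP, fB_eq, fL, show (9 : ℝ) * pP L = pP L * 9 by ring, ← div_div]; ring
  have e2 : fP (mixv lam L) = 1 / 9 * (
      ((lam * (L 0 - L 1)) ^ 2 / pP L - 2 * prTerm (mixv lam L 0) (mixv lam L 1))
      + ((lam * (L 0 - L 2)) ^ 2 / pP L - 2 * prTerm (mixv lam L 0) (mixv lam L 2))
      + ((lam * (L 1 - L 2)) ^ 2 / pP L - 2 * prTerm (mixv lam L 1) (mixv lam L 2))) := by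
    rw [fP, fB_eq, pP_mixv, fL, show (9 : ℝ) * pP L = pP L * 9 by ring, ← div_div]
    simp only [mixv]; ring
  rw [e1, e2]
  simp only [mixv] at k01 k02 k12 ⊢
  linarith

lemma mixv_nonneg {lam : ℝ} (h0 : 0 ≤ lam) (h1 : lam ≤ 1) {L : Fin 3 → ℝ} (hL : ∀ i, 0 ≤ L i)
    (i : Fin 3) : 0 ≤ mixv lam L i := by
  have := hL i; have := pP_nonneg hL; have : 0 ≤ 1 - lam := by linarith
  unfold mixv; positivity

lemma pP_perm (L : Fin 3 → ℝ) (π : Equiv.Perm (Fin 3)) : pP (fun i => L (π i)) = pP L := by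
  have := Equiv.sum_comp π L
  simp only [Fin.sum_univ_three] at this
  simp only [pP, this]

/-- Pass every observation through the Potts kernel. -/
noncomputable def Chan.mix (C : Chan) (lam : ℝ) (h0 : 0 ≤ lam) (h1 : lam ≤ 1) : Chan where
  ι := C.ι
  V y := mixv lam (C.V y)
  nonneg y := mixv_nonneg h0 h1 (C.nonneg y)
  total i := by
    simpa [mixv] using ((C.total i).mul_left lam).add (C.hasSum_pP.mul_left (1 - lam))
  sym π := by
    obtain ⟨e, he⟩ := C.sym π
    refine ⟨e, fun y i => ?_⟩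
    have : C.V (e y) = fun i => C.V y (π i) := funext (he y)
    simp only [mixv]
    rw [this, pP_perm]

lemma Chan.mix_PZ (C : Chan) {lam : ℝ} (h0 : 0 ≤ lam) (h1 : lam < 1) :
    (C.mix lam h0 h1.le).PZ := by
  intro y
  change (∀ i, 0 < mixv lam (C.V y) i) ∨ mixv lam (C.V y) = 0
  rcases (pP_nonneg (C.nonneg y)).lt_or_eq with hp | hz
  · left
    intro i
    have := mul_nonneg h0 (C.nonneg y i)
    have := mul_pos (sub_pos.mpr h1) hp
    unfold mixv; linarith
  · right
    have e : ∀ i, C.V y i = 0 := fun i => by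
      have := le_three_pP (C.nonneg y) i; have := C.nonneg y i; linarith
    funext i; simp [mixv, pP, e]

/-- Independent pair of observations. -/
noncomputable def Chan.star (A B : Chan) : Chan where
  ι := A.ι × B.ι
  V y i := A.V y.1 i * B.V y.2 i
  nonneg y i := mul_nonneg (A.nonneg _ i) (B.nonneg _ i)
  total i := by
    have := (A.total i).mul (B.total i)
      ((A.total i).summable.mul_of_nonneg (B.total i).summable (fun y => A.nonneg y i)
        fun y => B.nonneg y i)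
    simpa using this
  sym π := by
    obtain ⟨e, he⟩ := A.sym π
    obtain ⟨f, hf⟩ := B.sym π
    exact ⟨e.prodCongr f, fun y i => by simp [he, hf]⟩

lemma Chan.star_PZ {A B : Chan} (hA : A.PZ) (hB : B.PZ) : (A.star B).PZ := by
  rintro ⟨a, b⟩
  rcases hA a with ha | ha
  · rcases hB b with hb | hb
    · exact Or.inl fun i => mul_pos (ha i) (hb i)
    · right; funext i; simp [Chan.star, hb]
  · right; funext i; simp [Chan.star, ha]

lemma Chan.E_mix {C : Chan} {lam : ℝ} (h0 : 0 ≤ lam) (h1 : lam ≤ 1) :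
    (C.mix lam h0 h1).E fB = lam ^ 2 * C.E fB ∧
      lam ^ 3 * C.E fP ≤ (C.mix lam h0 h1).E fP := by
  constructor
  · simp only [Chan.E, Chan.mix, fB_mixv]; exact tsum_mul_left
  · simp only [Chan.E]
    rw [← tsum_mul_left]
    exact Summable.tsum_le_tsum (fun y => fP_mixv h0 h1 (C.nonneg y))
      ((C.summable adm_fP).mul_left _) ((C.mix lam h0 h1).summable adm_fP)

end Vale.Agent.P154
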