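import Mathlib

/-!
The broadcasting model of the Potts channel on a random tree with independent offspring counts.

An observation at depth `n` records the tree down to level `n` (for each vertex, its number of
children, in an arbitrary order) together with the spins at level `n`.
-/

namespace Vale.Agent.P154

/-- The Potts channel: probability of child spin `j` given parent spin `i`. -/
noncomputable def potts (q : ℕ) (lam : ℝ) (i j : Fin q) : ℝ :=
  lam * (if i = j then 1 else 0) + (1 - lam) / q

/-- Observations at depth `n`: the root spin at depth `0`; otherwise the number `k` of children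
of the root and, for each child, the observation of depth `n - 1` in its subtree. -/
def Obs (q : ℕ) : ℕ → Type
  | 0 => Fin q
  | n + 1 => Σ k : ℕ, Fin k → Obs q n

/-- Probability of an observation given the root spin, for the offspring law `ν`. -/
noncomputable def lik (q : ℕ) (lam : ℝ) (ν : ℕ → ℝ) : (n : ℕ) → Obs q n → Fin q → ℝ
  | 0, y, i => if (show Fin q from y) = i then 1 else 0
  | n + 1, ⟨k, ys⟩, i => ν k * ∏ c, ∑ j, potts q lam i j * lik q lam ν n (ys c) j

/-- `a_n = E [ (1/2) Σ_i |Pr(root = i | observation) - 1/q| ]` for a uniform root spin, written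
as a sum over observations `y` of `Pr(y) · (1/2) Σ_i |Pr(root = i | y) - 1/q|`, where
`Pr(root = i, y) = lik y i / q` and `Pr(y) = Σ_j lik y j / q`. -/
noncomputable def advantage (q : ℕ) (lam : ℝ) (ν : ℕ → ℝ) (n : ℕ) : ℝ :=
  ∑' y : Obs q n,
    (1 / 2) * ∑ i, |lik q lam ν n y i / q - (∑ j, lik q lam ν n y j / q) / q|

/-- Offspring law of the `d`-ary tree. -/
def regularLaw (d k : ℕ) : ℝ := if k = d then 1 else 0

/-- Poisson offspring law with mean `d`. -/
noncomputable def poissonLaw (d : ℝ) (k : ℕ) : ℝ :=
  Real.exp (-d) * d ^ k / k.factorial

end Vale.Agent.P154
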