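import Vale.Agent.P154.Node
import Vale.Agent.P154.Model

/-!
The broadcasting model as a sequence of channels; nonreconstruction below and at the
Kesten–Stigum value.
-/

namespace Vale.Agent.P154

open Filter Topology

variable {lam : ℝ} {ν : ℕ → ℝ}

lemma Chan.E_nonneg' (C : Chan) {F : (Fin 3 → ℝ) → ℝ} (h : ∀ y, 0 ≤ F (C.V y)) : 0 ≤ C.E F :=
  tsum_nonneg h

lemma sum_potts_eq_mixv (lam : ℝ) (L : Fin 3 → ℝ) (i : Fin 3) :
    ∑ j, potts 3 lam i j * L j = mixv lam L i := by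
  simp only [Fin.sum_univ_three, potts, mixv, pP]
  fin_cases i <;> simp <;> ring

/-- The channel made of the leaf spin. -/
noncomputable def baseChan : Chan where
  ι := Fin 3
  V y i := if y = i then 1 else 0
  nonneg y i := by split_ifs <;> norm_num
  total i := hasSum_ite_eq i 1
  sym π := ⟨π.symm, fun y i => by simp [Equiv.symm_apply_eq]⟩

lemma lik_facts (h0 : 0 ≤ lam) (h1 : lam ≤ 1) (hν : ∀ k, 0 ≤ ν k) (hν1 : HasSum ν 1) : ∀ n : ℕ,
    (∀ (y : Obs 3 n) i, 0 ≤ lik 3 lam ν n y i) ∧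
      (∀ i, HasSum (fun y : Obs 3 n => lik 3 lam ν n y i) 1) ∧
      ∀ π : Equiv.Perm (Fin 3), ∃ e : Obs 3 n ≃ Obs 3 n,
        ∀ y i, lik 3 lam ν n (e y) i = lik 3 lam ν n y (π i) := by
  intro n
  induction n with
  | zero => exact ⟨baseChan.nonneg, baseChan.total, baseChan.sym⟩
  | succ n ih =>
    let C : Chan := ⟨Obs 3 n, lik 3 lam ν n, ih.1, ih.2.1, ih.2.2⟩
    let N := (C.mix lam h0 h1).node ν hν hν1
    have e : ∀ (y : Obs 3 (n + 1)) i, lik 3 lam ν (n + 1) y i = N.V y i := by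
      rintro ⟨k, ys⟩ i
      simp only [lik, sum_potts_eq_mixv]
      rfl
    refine ⟨fun y i => by rw [e]; exact N.nonneg y i, fun i => ?_, fun π => ?_⟩
    · simp only [e]; exact N.total i
    · obtain ⟨f, hf⟩ := N.sym π
      exact ⟨f, fun y i => by rw [e, e]; exact hf y i⟩

/-- The channel of depth `n`. -/
noncomputable def treeChan (h0 : 0 ≤ lam) (h1 : lam ≤ 1) (hν : ∀ k, 0 ≤ ν k) (hν1 : HasSum ν 1)
    (n : ℕ) : Chan :=
  ⟨Obs 3 n, lik 3 lam ν n, (lik_facts h0 h1 hν hν1 n).1, (lik_facts h0 h1 hν hν1 n).2.1,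
    (lik_facts h0 h1 hν hν1 n).2.2⟩

/-- Summand of the advantage. -/
noncomputable def fA (L : Fin 3 → ℝ) : ℝ := (1 / 2) * ∑ i, |L i / 3 - (∑ j, L j / 3) / 3|

lemma fA_eq (L : Fin 3 → ℝ) :
    fA L = (|L 0 - pP L| + |L 1 - pP L| + |L 2 - pP L|) / 6 := by
  have e : ∀ i, |L i / 3 - (∑ j, L j / 3) / 3| = |L i - pP L| / 3 := fun i => by
    rw [← abs_of_pos (by norm_num : (0:ℝ) < 3), ← abs_div, abs_of_pos (by norm_num : (0:ℝ) < 3)]
    congr 1
    simp only [Fin.sum_univ_three, pP]; ring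
  simp only [fA, e]
  rw [Fin.sum_univ_three]
  ring

lemma adm_fA : Adm fA := ⟨2, fun L h => by
  have := h 0; have := h 1; have := h 2
  have hp := pP_nonneg h
  have b : ∀ i, |L i - pP L| ≤ 4 * pP L := fun i => by
    have := le_three_pP h i; have := h i
    rw [abs_le]; constructor <;> linarith
  have := b 0; have := b 1; have := b 2
  rw [fA_eq, abs_of_nonneg (by positivity)]
  linarith⟩

lemma advantage_eq (h0 : 0 ≤ lam) (h1 : lam ≤ 1) (hν : ∀ k, 0 ≤ ν k) (hν1 : HasSum ν 1) (n : ℕ) :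
    advantage 3 lam ν n = (treeChan h0 h1 hν hν1 n).E fA := by
  simp only [advantage, Chan.E, treeChan, fA, Nat.cast_ofNat]

lemma tree_succ (h0 : 0 ≤ lam) (h1 : lam ≤ 1) (hν : ∀ k, 0 ≤ ν k) (hν1 : HasSum ν 1) (n : ℕ)
    (F : (Fin 3 → ℝ) → ℝ) :
    (treeChan h0 h1 hν hν1 (n + 1)).E F =
      (((treeChan h0 h1 hν hν1 n).mix lam h0 h1).node ν hν hν1).E F := by
  simp only [Chan.E]
  refine tsum_congr fun y => congrArg F (funext fun i => ?_)
  obtain ⟨k, ys⟩ := y
  simp only [treeChan, lik, sum_potts_eq_mixv]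
  rfl

/-- `|L_i - P|` is controlled by the chi-square functional. -/
lemma fA_le (L : Fin 3 → ℝ) (hL : ∀ i, 0 ≤ L i) {e : ℝ} (he : 0 < e) :
    fA L ≤ e * pP L + fB L / e := by
  rw [fA_eq]
  rcases (pP_nonneg hL).lt_or_eq with hp | hz
  · have hB : fB L = ((L 0 - pP L) ^ 2 + (L 1 - pP L) ^ 2 + (L 2 - pP L) ^ 2) / (3 * pP L) := by
      rw [fB, div_sub' hp.ne', div_eq_div_iff hp.ne' (by positivity)]
      simp only [pP]; ring
    have k : ∀ d : ℝ, |d| ≤ e * pP L + d ^ 2 / (e * pP L) := by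
      intro d
      have hep : 0 < e * pP L := by positivity
      rw [← sub_le_iff_le_add', le_div_iff₀ hep]
      nlinarith [sq_nonneg (|d| - e * pP L), sq_abs d, abs_nonneg d]
    have := k (L 0 - pP L); have := k (L 1 - pP L); have := k (L 2 - pP L)
    have e2 : fB L / e = ((L 0 - pP L) ^ 2 / (e * pP L) + (L 1 - pP L) ^ 2 / (e * pP L)
        + (L 2 - pP L) ^ 2 / (e * pP L)) / 3 := by
      rw [hB, div_div, ← add_div, ← add_div, div_div,
        show 3 * pP L * e = e * pP L * 3 by ring]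
    have := fB_nonneg hL
    have : 0 ≤ fB L / e := by positivity
    have : 0 ≤ e * pP L := by positivity
    linarith
  · have e0 : ∀ i, L i = 0 := fun i => by
      have := le_three_pP hL i; have := hL i; linarith
    simp [fB, pP, e0]

lemma Chan.fA_tendsto_zero {C : ℕ → Chan} (h : Tendsto (fun n => (C n).E fB) atTop (𝓝 0)) :
    Tendsto (fun n => (C n).E fA) atTop (𝓝 0) := by
  rw [Metric.tendsto_atTop] at h ⊢
  intro ε hε
  have he : 0 < ε / 2 := by positivity
  obtain ⟨N, hN⟩ := h (ε / 2 * (ε / 2)) (by positivity)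
  refine ⟨N, fun n hn => ?_⟩
  have hB := hN n hn
  have nB := (C n).E_nonneg fun L hL => fB_nonneg hL
  have nA : 0 ≤ (C n).E fA := (C n).E_nonneg fun L _ => by unfold fA; positivity
  rw [Real.dist_eq, sub_zero, abs_of_nonneg nB] at hB
  rw [Real.dist_eq, sub_zero, abs_of_nonneg nA]
  have hle : (C n).E fA ≤ ε / 2 * 1 + (C n).E fB / (ε / 2) :=
    hasSum_le (fun y => fA_le _ ((C n).nonneg y) he) ((C n).summable adm_fA).hasSum
      (((C n).hasSum_pP.mul_left (ε / 2)).add ((HasSum.div_const (((C n).summable adm_fB).hasSum) (ε / 2))))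
  have : (C n).E fB / (ε / 2) < ε / 2 := by rw [div_lt_iff₀ he]; exact hB
  linarith

/-- A nonnegative sequence with `y' ≤ a y - c y²`, `a ≤ 1`, `c > 0`, tends to zero. -/
lemma tendsto_zero_of_quad {y : ℕ → ℝ} {a c : ℝ} (hy : ∀ n, 0 ≤ y n) (ha : a ≤ 1) (hc : 0 < c)
    (h : ∀ n, y (n + 1) ≤ a * y n - c * y n ^ 2) : Tendsto y atTop (𝓝 0) := by
  have hd : ∀ n, y (n + 1) ≤ y n := fun n => by
    nlinarith [h n, hy n, mul_nonneg hc.le (sq_nonneg (y n))]
  have anti : Antitone y := antitone_nat_of_succ_le hd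
  have hbdd : BddBelow (Set.range y) := ⟨0, by rintro _ ⟨n, rfl⟩; exact hy n⟩
  have hl := tendsto_atTop_ciInf anti hbdd
  set l := ⨅ n, y n
  have h2 : Tendsto (fun n => a * y n - c * y n ^ 2) atTop (𝓝 (a * l - c * l ^ 2)) :=
    (hl.const_mul a).sub ((hl.pow 2).const_mul c)
  have h3 := le_of_tendsto_of_tendsto' (hl.comp (tendsto_add_atTop_nat 1)) h2 h
  have l0 : 0 ≤ l := le_ciInf hy
  have : c * l ^ 2 ≤ 0 := by nlinarith [mul_le_mul_of_nonneg_right ha l0]
  have : l = 0 := by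
    by_contra hne
    have : 0 < c * l ^ 2 := mul_pos hc (by positivity)
    linarith
  rwa [this] at hl

/-- Nonreconstruction for `lam < 1` whenever `m lam² ≤ 1`. -/
theorem nonrecon_lt_one (h0 : 0 ≤ lam) (h1 : lam < 1) (hν : ∀ k, 0 ≤ ν k) (hν1 : HasSum ν 1)
    {m : ℝ} (hm : HasSum (fun k => ν k * k) m) (hk : ∃ k₀, 2 ≤ k₀ ∧ 0 < ν k₀)
    (hle : m * lam ^ 2 ≤ 1) : Tendsto (advantage 3 lam ν) atTop (𝓝 0) := by
  obtain ⟨k₀, hk₀, hpos⟩ := hk
  set T := treeChan h0 h1.le hν hν1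
  have inv : ∀ n, 0 ≤ (T n).E fP := by
    intro n
    induction n with
    | zero =>
      refine (T 0).E_nonneg' fun y => ?_
      have : (T 0).V y = fun i => if (show Fin 3 from y) = i then 1 else 0 := rfl
      rw [this]
      generalize (show Fin 3 from y) = j
      fin_cases j <;> norm_num [fP, fB, fL, prTerm, pP, Fin.ext_iff]
    | succ n ih =>
      rw [tree_succ]
      refine (Chan.node_bound _ ((T n).mix_PZ h0 h1) ?_ ν hν hν1 hm hk₀).1
      exact le_trans (mul_nonneg (pow_nonneg h0 3) ih) ((T n).E_mix h0 h1.le).2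
  have rec' : ∀ n, (T (n + 1)).E fB ≤
      (m * lam ^ 2) * (T n).E fB - ν k₀ / 25 * lam ^ 4 * (T n).E fB ^ 2 := by
    intro n
    rw [tree_succ]
    have := (Chan.node_bound _ ((T n).mix_PZ h0 h1)
      (le_trans (mul_nonneg (pow_nonneg h0 3) (inv n)) ((T n).E_mix h0 h1.le).2)
      ν hν hν1 hm hk₀).2
    rw [((T n).E_mix h0 h1.le).1] at this
    linarith
  have hB : Tendsto (fun n => (T n).E fB) atTop (𝓝 0) := by
    rcases h0.lt_or_eq with hl | hl
    · exact tendsto_zero_of_quad (fun n => (T n).E_nonneg fun L hL => fB_nonneg hL) hle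
        (by positivity) rec'
    · refine tendsto_atTop_of_eventually_const (i₀ := 1) fun n hn => ?_
      obtain ⟨j, rfl⟩ : ∃ j, n = j + 1 := ⟨n - 1, by omega⟩
      have := rec' j
      rw [← hl] at this
      have := (T (j + 1)).E_nonneg fun L hL => fB_nonneg hL
      simp at *
      linarith
  exact (Chan.fA_tendsto_zero hB).congr fun n => (advantage_eq h0 h1.le hν hν1 n).symm

end Vale.Agent.P154
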