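import Vale.Agent.P154.Domain

/-!
The rational identities expressing the class sums of the three-state star recursion through the
invariants, for normalised vectors.
-/

namespace Vale.Agent.P154

/-- `A = mean (u_i^2)` for `u = (x, y, -x-y)`. -/
noncomputable def iA (x y : ℝ) : ℝ := (x ^ 2 + y ^ 2 + (x + y) ^ 2) / 3
/-- `T = mean (u_i^3)`. -/
noncomputable def iT (x y : ℝ) : ℝ := (x ^ 3 + y ^ 3 - (x + y) ^ 3) / 3

/-- The bilinear pairing `1 + ⟨u,w⟩`. -/
noncomputable def zK (x y z a b c : ℝ) : ℝ := 1 + (x * a + y * b + z * c) / 3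
/-- The squared norm of the pointwise product of `1+u` and `1+w`. -/
noncomputable def nK (x y z a b c : ℝ) : ℝ :=
  (((1 + x) * (1 + a)) ^ 2 + ((1 + y) * (1 + b)) ^ 2 + ((1 + z) * (1 + c)) ^ 2) / 3

/-- Product of the three pairings of one cyclic class. -/
noncomputable def dCl (x y a b : ℝ) : ℝ :=
  zK x y (-x - y) a b (-a - b) * zK x y (-x - y) b (-a - b) a
    * zK x y (-x - y) (-a - b) a b

/-- `2 Re X^3` of one class. -/
noncomputable def lCl (x y a b : ℝ) : ℝ := dCl x y a b - 1 + 3 / 4 * (iA x y * iA a b)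

lemma class_sum (x y a b : ℝ) :
    nK x y (-x - y) a b (-a - b) * (zK x y (-x - y) b (-a - b) a * zK x y (-x - y) (-a - b) a b)
    + nK x y (-x - y) b (-a - b) a * (zK x y (-x - y) (-a - b) a b * zK x y (-x - y) a b (-a - b))
    + nK x y (-x - y) (-a - b) a b * (zK x y (-x - y) a b (-a - b) * zK x y (-x - y) b (-a - b) a)
    = 3 * (1 + iA x y + iA a b) * dCl x y a b + 3 *
      (-(iA x y * iA a b) / 2 - (iA x y * iA a b) ^ 2 / 8
        + (iA x y + iA a b) * (iA x y * iA a b) / 2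
        - iA x y * iT a b * (1 - iA x y / 2) - iA a b * iT x y * (1 - iA a b / 2)
        + (2 - iA x y - iA a b) * lCl x y a b) := by
  simp only [nK, lCl, dCl, zK, iA, iT]; ring

lemma lCl_add (x y a b : ℝ) : lCl x y a b + lCl x y b a = iT x y * iT a b := by
  simp only [lCl, dCl, zK, iA, iT]; ring

lemma lCl_mul (x y a b : ℝ) : lCl x y a b * lCl x y b a =
    (iT x y * iT a b / 2) ^ 2
      - (iA x y ^ 3 / 2 - iT x y ^ 2) * (iA a b ^ 3 / 2 - iT a b ^ 2) / 4 := by
  simp only [lCl, dCl, zK, iA, iT]; ring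

lemma iA_comm (a b : ℝ) : iA b a = iA a b := by simp only [iA]; ring
lemma iT_comm (a b : ℝ) : iT b a = iT a b := by simp only [iT]; ring

lemma prod_eq (x y : ℝ) :
    (1 + x) * (1 + y) * (1 + (-x - y)) = 1 - 3 / 2 * iA x y + iT x y := by
  simp only [iA, iT]; ring

lemma sigma_eq (x y : ℝ) :
    (2 - x) * (2 - y) * (2 - (-x - y)) = 8 - 3 * iA x y - iT x y := by
  simp only [iA, iT]; ring

lemma lecam_eq (x y : ℝ) :
    (x - y) ^ 2 * ((2 - x) * (2 - y)) + (x - (-x - y)) ^ 2 * ((2 - x) * (2 - (-x - y)))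
      + (y - (-x - y)) ^ 2 * ((2 - y) * (2 - (-x - y)))
    = 9 / 2 * (8 * iA x y - 4 * iT x y - 2 * iA x y ^ 2) := by
  simp only [iA, iT]; ring

lemma inDom_of (x y : ℝ) (h0 : -1 ≤ x) (h1 : -1 ≤ y) (h2 : -1 ≤ -x - y) :
    InDom (2 * iA x y) (4 * iT x y) := by
  refine ⟨?_, ?_, ?_, ?_⟩
  · simp only [iA]; positivity
  · have p1 := mul_nonneg (by linarith : (0:ℝ) ≤ 1 + x) (by linarith : (0:ℝ) ≤ 1 + y)
    have p2 := mul_nonneg (by linarith : (0:ℝ) ≤ 1 + x) (by linarith : (0:ℝ) ≤ 1 - x - y)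
    have p3 := mul_nonneg (by linarith : (0:ℝ) ≤ 1 + y) (by linarith : (0:ℝ) ≤ 1 - x - y)
    simp only [iA]; nlinarith
  · have : (2 * iA x y) ^ 3 - (4 * iT x y) ^ 2 =
        16 / 27 * ((x - y) * (2 * x + y) * (x + 2 * y)) ^ 2 := by
      simp only [iA, iT]; ring
    nlinarith [sq_nonneg ((x - y) * (2 * x + y) * (x + 2 * y))]
  · have hp : 0 ≤ (1 + x) * (1 + y) * (1 + (-x - y)) :=
      mul_nonneg (mul_nonneg (by linarith) (by linarith)) (by linarith)
    rw [prod_eq] at hp; linarith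

end Vale.Agent.P154
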