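import Mathlib

/-!
Verification of nonnegativity certificates for integer polynomials in several variables on a
unit box.  A claimed list of Bernstein coefficients is compared with the polynomial at one
Kronecker point; a bound on the sum of absolute values of coefficients makes this decisive.
-/

namespace Vale.Agent.P154

/-- Coefficient rings of nested lists. -/
class NPoly (R : Type) where
  add : R → R → R
  mul : R → R → R
  cst : ℤ → R
  ev : {S : Type} → [CommRing S] → (ℕ → S) → R → S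
  /-- Evaluation of the coefficientwise absolute value. -/
  aev : (ℕ → ℤ) → R → ℤ
  /-- Number of variables. -/
  dep : ℕ

/-- Shift of a point. -/
def sh {S : Type} (ρ : ℕ → S) : ℕ → S := fun i => ρ (i + 1)

/-- The first `k` coordinates replaced by one. -/
def mix (k : ℕ) (ρ : ℕ → ℤ) : ℕ → ℤ := fun i => if i < k then 1 else ρ i

open NPoly

class NPolyLaws (R : Type) [NPoly R] : Prop where
  ev_add : ∀ {S : Type} [CommRing S] (ρ : ℕ → S) (a b : R), ev ρ (add a b) = ev ρ a + ev ρ b
  ev_mul : ∀ {S : Type} [CommRing S] (ρ : ℕ → S) (a b : R), ev ρ (mul a b) = ev ρ a * ev ρ b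
  ev_cst : ∀ {S : Type} [CommRing S] (ρ : ℕ → S) (k : ℤ), ev ρ (cst k : R) = (k : S)
  aev_add : ∀ (ρ : ℕ → ℤ), (∀ i, 0 ≤ ρ i) → ∀ a b : R, aev ρ (add a b) ≤ aev ρ a + aev ρ b
  aev_mul : ∀ (ρ : ℕ → ℤ), (∀ i, 0 ≤ ρ i) → ∀ a b : R, aev ρ (mul a b) ≤ aev ρ a * aev ρ b
  aev_cst : ∀ (ρ : ℕ → ℤ) (k : ℤ), aev ρ (cst k : R) = |k|
  aev_nonneg : ∀ (ρ : ℕ → ℤ), (∀ i, 0 ≤ ρ i) → ∀ a : R, 0 ≤ aev ρ a
  abs_ev_le : ∀ (ρ : ℕ → ℤ), (∀ i, 0 ≤ ρ i) → ∀ a : R, |ev ρ a| ≤ aev ρ a
  vanish : ∀ (ρ : ℕ → ℤ), (∀ i, 0 ≤ ρ i) → ∀ a : R,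
    (∀ k < dep R, 2 * aev (mix (k + 1) ρ) a < ρ k) → ev ρ a = 0 →
    ∀ {S : Type} [CommRing S] (σ : ℕ → S), ev σ a = 0

open NPolyLaws

instance intNPoly : NPoly ℤ where
  add := (· + ·)
  mul := (· * ·)
  cst := id
  ev {S} _ _ a := (a : S)
  aev _ a := |a|
  dep := 0

instance intNPolyLaws : NPolyLaws ℤ where
  ev_add _ a b := Int.cast_add a b
  ev_mul _ a b := Int.cast_mul a b
  ev_cst _ _ := rfl
  aev_add _ _ a b := abs_add_le a b
  aev_mul _ _ a b := le_of_eq (abs_mul a b)
  aev_cst _ _ := rfl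
  aev_nonneg _ _ a := abs_nonneg a
  abs_ev_le _ _ a := by simp [ev, aev]
  vanish _ _ a _ h S _ σ := by
    have : a = 0 := by simpa [ev] using h
    simp [ev, this]

variable {R : Type} [NPoly R]

/-- Coefficientwise sum. -/
def ladd : List R → List R → List R
  | [], q => q
  | p, [] => p
  | a :: p, b :: q => add a b :: ladd p q

/-- Product in the monomial basis. -/
def lmul : List R → List R → List R
  | [], _ => []
  | a :: p, q => ladd (q.map (mul a)) (cst 0 :: lmul p q)

/-- Horner evaluation. -/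
def hev {S : Type} [CommRing S] (ρ : ℕ → S) : List R → S
  | [] => 0
  | a :: p => ev (sh ρ) a + ρ 0 * hev ρ p

/-- Horner evaluation of absolute values. -/
def hav (ρ : ℕ → ℤ) : List R → ℤ
  | [] => 0
  | a :: p => aev (sh ρ) a + ρ 0 * hav ρ p

instance listNPoly : NPoly (List R) where
  add := ladd
  mul := lmul
  cst k := [cst k]
  ev ρ p := hev ρ p
  aev ρ p := hav ρ p
  dep := dep R + 1

variable [NPolyLaws R]

lemma hev_ladd {S : Type} [CommRing S] (ρ : ℕ → S) (p q : List R) :
    hev ρ (ladd p q) = hev ρ p + hev ρ q := by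
  induction p generalizing q with
  | nil => simp [ladd, hev]
  | cons a p ih =>
    cases q with
    | nil => simp [ladd, hev]
    | cons b q => simp only [ladd, hev, ih, ev_add]; ring

lemma hev_lmul {S : Type} [CommRing S] (ρ : ℕ → S) (p q : List R) :
    hev ρ (lmul p q) = hev ρ p * hev ρ q := by
  have key : ∀ (a : R) (q : List R), hev ρ (q.map (mul a)) = ev (sh ρ) a * hev ρ q := by
    intro a q
    induction q with
    | nil => simp [hev]
    | cons b q ih => simp only [List.map_cons, hev, ih, ev_mul]; ring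
  induction p with
  | nil => simp [lmul, hev]
  | cons a p ih => simp only [lmul, hev, hev_ladd, key, ih, ev_cst, Int.cast_zero]; ring

lemma hav_nonneg (ρ : ℕ → ℤ) (hρ : ∀ i, 0 ≤ ρ i) (p : List R) : 0 ≤ hav ρ p := by
  induction p with
  | nil => simp [hav]
  | cons a p ih =>
    have := aev_nonneg (sh ρ) (fun i => hρ (i + 1)) a
    have := hρ 0
    simp only [hav]; positivity

lemma hav_ladd (ρ : ℕ → ℤ) (hρ : ∀ i, 0 ≤ ρ i) (p q : List R) :
    hav ρ (ladd p q) ≤ hav ρ p + hav ρ q := by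
  induction p generalizing q with
  | nil => simp [ladd, hav]
  | cons a p ih =>
    cases q with
    | nil => simp [ladd, hav]
    | cons b q =>
      simp only [ladd, hav]
      have h1 := aev_add (sh ρ) (fun i => hρ (i + 1)) a b
      have h2 := mul_le_mul_of_nonneg_left (ih q) (hρ 0)
      linarith

lemma hav_lmul (ρ : ℕ → ℤ) (hρ : ∀ i, 0 ≤ ρ i) (p q : List R) :
    hav ρ (lmul p q) ≤ hav ρ p * hav ρ q := by
  have hs : ∀ i, 0 ≤ sh ρ i := fun i => hρ (i + 1)
  have key : ∀ (a : R) (q : List R), hav ρ (q.map (mul a)) ≤ aev (sh ρ) a * hav ρ q := by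
    intro a q
    induction q with
    | nil => simp [hav]
    | cons b q ih =>
      simp only [List.map_cons, hav]
      have h1 := aev_mul (sh ρ) hs a b
      have h2 := mul_le_mul_of_nonneg_left ih (hρ 0)
      nlinarith
  induction p with
  | nil => simp [lmul, hav]
  | cons a p ih =>
    simp only [lmul]
    refine le_trans (hav_ladd ρ hρ _ _) ?_
    simp only [hav, aev_cst, abs_zero, zero_add]
    have h1 := key a q
    have h2 := mul_le_mul_of_nonneg_left ih (hρ 0)
    nlinarith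

lemma abs_hev_le (ρ : ℕ → ℤ) (hρ : ∀ i, 0 ≤ ρ i) (p : List R) : |hev ρ p| ≤ hav ρ p := by
  induction p with
  | nil => simp [hev, hav]
  | cons a p ih =>
    simp only [hev, hav]
    refine le_trans (abs_add_le _ _) ?_
    rw [abs_mul, abs_of_nonneg (hρ 0)]
    exact add_le_add (abs_ev_le _ (fun i => hρ (i + 1)) a)
      (mul_le_mul_of_nonneg_left ih (hρ 0))

lemma sh_mix (k : ℕ) (ρ : ℕ → ℤ) : sh (mix (k + 1) ρ) = mix k (sh ρ) := by
  funext i; simp [sh, mix]

lemma mix_nonneg (k : ℕ) (ρ : ℕ → ℤ) (hρ : ∀ i, 0 ≤ ρ i) : ∀ i, 0 ≤ mix k ρ i := by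
  intro i; unfold mix; split_ifs
  · exact zero_le_one
  · exact hρ i

lemma hev_vanish (ρ : ℕ → ℤ) (hρ : ∀ i, 0 ≤ ρ i) (p : List R)
    (hk : ∀ k < dep R + 1, 2 * hav (mix (k + 1) ρ) p < ρ k) (h : hev ρ p = 0)
    {S : Type} [CommRing S] (σ : ℕ → S) : hev σ p = 0 := by
  induction p with
  | nil => simp [hev]
  | cons a p ih =>
    have hrec : ∀ k, hav (mix (k + 1) ρ) (a :: p) =
        aev (mix k (sh ρ)) a + hav (mix (k + 1) ρ) p := by
      intro k; simp [hav, sh_mix, mix]
    have hp : ∀ k < dep R + 1, 2 * hav (mix (k + 1) ρ) p < ρ k := by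
      intro k hk'
      have := hk k hk'
      rw [hrec] at this
      have := aev_nonneg (mix k (sh ρ)) (mix_nonneg k _ fun i => hρ (i + 1)) a
      linarith
    have h0 := hk 0 (Nat.succ_pos _)
    rw [hrec] at h0
    have hm : mix 0 (sh ρ) = sh ρ := by funext i; simp [mix]
    rw [hm] at h0
    have ha := abs_ev_le (sh ρ) (fun i => hρ (i + 1)) a
    have hb := hav_nonneg (mix 1 ρ) (mix_nonneg 1 ρ hρ) p
    simp only [hev] at h
    have hdvd : ρ 0 ∣ ev (sh ρ) a := ⟨-hev ρ p, by linarith⟩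
    have ha0 : ev (sh ρ) a = 0 := by
      refine Int.eq_zero_of_abs_lt_dvd hdvd ?_
      have := abs_nonneg (ev (sh ρ) a)
      linarith
    have hp0 : hev ρ p = 0 := by
      rw [ha0, zero_add] at h
      rcases mul_eq_zero.mp h with h' | h'
      · have := abs_nonneg (ev (sh ρ) a); norm_num at h0; linarith
      · exact h'
    have hA := vanish (sh ρ) (fun i => hρ (i + 1)) a (fun k hk' => by
      have := hk (k + 1) (Nat.succ_lt_succ hk')
      rw [hrec] at this
      have := hav_nonneg (mix (k + 1 + 1) ρ) (mix_nonneg _ ρ hρ) p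
      have e : sh ρ k = ρ (k + 1) := rfl
      rw [e]; linarith) ha0 (sh σ)
    simp [hev, hA, ih hp hp0]

instance listNPolyLaws : NPolyLaws (List R) where
  ev_add ρ a b := hev_ladd ρ a b
  ev_mul ρ a b := hev_lmul ρ a b
  ev_cst ρ k := by simp [ev, cst, hev, ev_cst]
  aev_add ρ h a b := hav_ladd ρ h a b
  aev_mul ρ h a b := hav_lmul ρ h a b
  aev_cst ρ k := by simp [aev, cst, hav, aev_cst]
  aev_nonneg ρ h a := hav_nonneg ρ h a
  abs_ev_le ρ h a := abs_hev_le ρ h a
  vanish ρ h a hk h0 S _ σ := hev_vanish ρ h a hk h0 σ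

/-- The variable of the outermost level. -/
def pX : List R := [cst 0, cst 1]
/-- One minus the variable of the outermost level. -/
def pY : List R := [cst 1, cst (-1)]

lemma ev_pX {S : Type} [CommRing S] (ρ : ℕ → S) : ev ρ (pX : List R) = ρ 0 := by
  simp [pX, ev, hev, ev_cst]

lemma ev_pY {S : Type} [CommRing S] (ρ : ℕ → S) : ev ρ (pY : List R) = 1 - ρ 0 := by
  simp [pY, ev, hev, ev_cst]; ring

lemma aev_pX (ρ : ℕ → ℤ) : aev ρ (pX : List R) = ρ 0 := by
  simp [pX, aev, hav, aev_cst]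

lemma aev_pY (ρ : ℕ → ℤ) : aev ρ (pY : List R) = 1 + ρ 0 := by
  simp [pY, aev, hav, aev_cst]

/-- Value of claimed Bernstein coefficients (Horner form). -/
def bhev {S : Type} [CommRing S] (f : R → S) (x y : S) : List R → S
  | [] => 0
  | a :: p => f a * y ^ p.length + x * bhev f x y p

/-- The polynomial with given Bernstein coefficients, the coefficients being given at level `R`. -/
def fromBern : List R → List R
  | [] => []
  | a :: p => ladd (lmul [a] (Nat.rec [cst 1] (fun _ q => lmul pY q) p.length))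
      (lmul pX (fromBern p))

lemma ev_fromBern {S : Type} [CommRing S] (ρ : ℕ → S) (p : List R) :
    ev ρ (fromBern p) = bhev (ev (sh ρ)) (ρ 0) (1 - ρ 0) p := by
  have hpow : ∀ n, hev ρ (Nat.rec ([cst 1] : List R) (fun _ q => lmul pY q) n) = (1 - ρ 0) ^ n := by
    intro n
    induction n with
    | zero => simp [hev, ev_cst]
    | succ n ih =>
      show hev ρ (lmul pY _) = _
      rw [hev_lmul, ih, pow_succ']
      have := ev_pY (R := R) ρ
      simp only [ev] at this
      rw [this]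
  induction p with
  | nil => simp [fromBern, bhev, ev, hev]
  | cons a p ih =>
    simp only [ev] at ih ⊢
    simp only [fromBern, bhev, hev_ladd, hev_lmul, hpow, ih]
    have := ev_pX (R := R) ρ
    simp only [ev] at this
    simp [hev, this]

lemma aev_fromBern (ρ : ℕ → ℤ) (hρ : ∀ i, 0 ≤ ρ i) (p : List R) :
    aev ρ (fromBern p) ≤ bhev (aev (sh ρ)) (ρ 0) (1 + ρ 0) p := by
  have h1 : (0 : ℤ) ≤ 1 + ρ 0 := by linarith [hρ 0]
  have hpow : ∀ n, hav ρ (Nat.rec ([cst 1] : List R) (fun _ q => lmul pY q) n) ≤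
      (1 + ρ 0) ^ n := by
    intro n
    induction n with
    | zero => simp [hav, aev_cst]
    | succ n ih =>
      show hav ρ (lmul pY _) ≤ _
      refine le_trans (hav_lmul ρ hρ _ _) ?_
      have := aev_pY (R := R) ρ
      simp only [aev] at this
      rw [this, pow_succ']
      exact mul_le_mul_of_nonneg_left ih h1
  induction p with
  | nil => simp [fromBern, bhev, aev, hav]
  | cons a p ih =>
    simp only [aev] at ih ⊢
    simp only [fromBern, bhev]
    refine le_trans (hav_ladd ρ hρ _ _) (add_le_add ?_ ?_)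
    · refine le_trans (hav_lmul ρ hρ _ _) ?_
      have ha := aev_nonneg (sh ρ) (fun i => hρ (i + 1)) a
      have : hav ρ [a] = aev (sh ρ) a := by simp [hav]
      rw [this]
      exact mul_le_mul_of_nonneg_left (hpow _) ha
    · refine le_trans (hav_lmul ρ hρ _ _) ?_
      have := aev_pX (R := R) ρ
      simp only [aev] at this
      rw [this]
      exact mul_le_mul_of_nonneg_left ih (hρ 0)

omit [NPolyLaws R] in
lemma bhev_mono {f g : R → ℤ} (h : ∀ a, f a ≤ g a) (x y : ℤ) (hx : 0 ≤ x) (hy : 0 ≤ y)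
    (p : List R) : bhev f x y p ≤ bhev g x y p := by
  induction p with
  | nil => simp [bhev]
  | cons a p ih =>
    simp only [bhev]
    exact add_le_add (mul_le_mul_of_nonneg_right (h a) (pow_nonneg hy _))
      (mul_le_mul_of_nonneg_left ih hx)

omit [NPoly R] [NPolyLaws R] in
lemma bhev_nonneg {f : R → ℝ} (x y : ℝ) (hx : 0 ≤ x) (hy : 0 ≤ y) (p : List R)
    (h : ∀ a ∈ p, 0 ≤ f a) : 0 ≤ bhev f x y p := by
  induction p with
  | nil => simp [bhev]
  | cons a p ih =>
    have h1 := h a (List.mem_cons_self ..)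
    have h2 := ih fun b hb => h b (List.mem_cons_of_mem _ hb)
    simp only [bhev]; positivity

end Vale.Agent.P154
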