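import Vale.Agent.P154.Bernstein

/-!
The two certificate polynomials for the three-state Potts recursion, in the invariants
`a = 2A`, `t = 4T` (and `b`, `s` for the second channel), and their nonnegativity on the domain.
-/

namespace Vale.Agent.P154

/-- Wrapper giving ring notation to a coefficient ring of the checker. -/
structure W (R : Type) where
  v : R

variable {R : Type} [NPoly R]

instance : Add (W R) := ⟨fun a b => ⟨NPoly.add a.v b.v⟩⟩
instance : Mul (W R) := ⟨fun a b => ⟨NPoly.mul a.v b.v⟩⟩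
instance : Sub (W R) := ⟨fun a b => ⟨NPoly.add a.v (NPoly.mul (NPoly.cst (-1)) b.v)⟩⟩

/-- Integer constant. -/
def W.k (n : ℤ) : W R := ⟨NPoly.cst n⟩

section defs

variable {S : Type} [Add S] [Mul S] [Sub S] (k : ℤ → S)

def duS (a t : S) : S := k 32 - k 6 * a - t
def pS (a t : S) : S := k 8 * t - a * t - k 2 * a * a
def omS (a t : S) : S := k 3 * a - t
def lS (a t : S) : S := k 8 * a - k 2 * t - a * a
def cS (a t b s : S) : S :=
  k 8 * (a + b) * (a * b) - k 16 * (a * b) - (a * b) * (a * b)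
    - k 4 * (a * s) * (k 4 - a) - k 4 * (b * t) * (k 4 - b)
def dS (a t b s : S) : S := k 32 - k 6 * (a * b) + t * s
def jS (a t b s : S) : S := (a * a * a - t * t) * (b * b * b - s * s)
def nS (a t b s : S) : S :=
  (cS k a t b s + k 2 * (k 4 - a - b) * (t * s)) * dS k a t b s
    - k 2 * (k 4 - a - b) * jS a t b s
def denS (a t b s : S) : S := dS k a t b s * dS k a t b s - jS a t b s
def mS (a t b s : S) : S :=
  pS k a t * omS k b s * duS k b s + pS k b s * omS k a t * duS k a t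
def uS (a t b s : S) : S := duS k a t * duS k b s
def certI (a t b s : S) : S :=
  k 0 - (k 800 * nS k a t b s * uS k a t b s + k 32 * (a * b) * denS k a t b s * uS k a t b s
    + k 325 * mS k a t b s * denS k a t b s)
def certII (a t b s : S) : S :=
  k 2 * nS k a t b s * uS k a t b s + mS k a t b s * denS k a t b s
    + k 24 * (lS k a t * lS k b s) * denS k a t b s
/-- `a` in the first region, `x ∈ [0,1]`. -/
def aR1 (x : S) : S := x * x
/-- `t` in the first region. -/
def tR1 (x y : S) : S := x * x * x * (k 2 * y - k 1)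
/-- `a` in the second region. -/
def aR2 (x : S) : S := (x + k 1) * (x + k 1)
/-- `t` in the second region. -/
def tR2 (x y : S) : S :=
  k 3 * ((x + k 1) * (x + k 1)) - k 4 + y * ((k 1 - x) * (k 1 - x)) * (k 2 + x)

end defs

abbrev P4 : Type := List (List (List (List ℤ)))

/-- A nonnegative certificate expression, usable over every ring-like type. -/
def expr11 {S : Type} [Add S] [Mul S] [Sub S] (two : Bool) (k : ℤ → S) (x y z v : S) : S :=
  if two then certII k (aR1 x) (tR1 k x y) (aR1 z) (tR1 k z v)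
  else certI k (aR1 x) (tR1 k x y) (aR1 z) (tR1 k z v)
def expr12 {S : Type} [Add S] [Mul S] [Sub S] (two : Bool) (k : ℤ → S) (x y z v : S) : S :=
  if two then certII k (aR1 x) (tR1 k x y) (aR2 k z) (tR2 k z v)
  else certI k (aR1 x) (tR1 k x y) (aR2 k z) (tR2 k z v)
def expr22 {S : Type} [Add S] [Mul S] [Sub S] (two : Bool) (k : ℤ → S) (x y z v : S) : S :=
  if two then certII k (aR2 k x) (tR2 k x y) (aR2 k z) (tR2 k z v)
  else certI k (aR2 k x) (tR2 k x y) (aR2 k z) (tR2 k z v)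

def vX : W P4 := ⟨pX⟩
def vY : W P4 := ⟨[pX]⟩
def vZ : W P4 := ⟨[[pX]]⟩
def vV : W P4 := ⟨[[[pX]]]⟩

/-- Integers with subtraction replaced by addition: bounds the coefficientwise absolute value. -/
structure Ab where
  v : ℤ
instance : Add Ab := ⟨fun a b => ⟨a.v + b.v⟩⟩
instance : Mul Ab := ⟨fun a b => ⟨a.v * b.v⟩⟩
instance : Sub Ab := ⟨fun a b => ⟨a.v + b.v⟩⟩

/-- Evaluation of nested Bernstein coefficients. -/
def bev4 {S : Type} [CommRing S] (f : ℤ → S) (ρ : ℕ → S) (w : ℕ → S) (C : P4) : S :=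
  bhev (bhev (bhev (bhev f (ρ 3) (w 3)) (ρ 2) (w 2)) (ρ 1) (w 1)) (ρ 0) (w 0) C

/-- The Kronecker point. -/
def kpt (e0 e1 e2 e3 : ℕ) : ℕ → ℤ := fun i =>
  if i = 0 then 2 ^ e0 else if i = 1 then 2 ^ e1 else if i = 2 then 2 ^ e2 else 2 ^ e3

/-- The decidable test. -/
def certOK (E : ∀ {S : Type} [Add S] [Mul S] [Sub S], (ℤ → S) → S → S → S → S → S)
    (ρ : ℕ → ℤ) (C : P4) : Bool :=
  decide (E (fun n => n) (ρ 0) (ρ 1) (ρ 2) (ρ 3) = bev4 (fun n => n) ρ (fun i => 1 - ρ i) C) &&
  C.all (fun p => p.all fun q => q.all fun r => r.all fun c => decide (0 ≤ c)) &&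
  (List.range 4).all fun k => decide
    (2 * ((E (fun n => (⟨|n|⟩ : Ab)) ⟨mix (k + 1) ρ 0⟩ ⟨mix (k + 1) ρ 1⟩ ⟨mix (k + 1) ρ 2⟩
        ⟨mix (k + 1) ρ 3⟩).v +
      bev4 (fun n => |n|) (mix (k + 1) ρ) (fun i => 1 + mix (k + 1) ρ i) C) < ρ k)

end Vale.Agent.P154
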