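import Vale.Agent.P154.Cert

/-!
Soundness of the certificate test.
-/

namespace Vale.Agent.P154

open NPoly NPolyLaws

variable {S : Type} [CommRing S] (ρ : ℕ → S)

lemma ev_Wadd (a b : W P4) : ev ρ (a + b).v = ev ρ a.v + ev ρ b.v := ev_add ρ a.v b.v
lemma ev_Wmul (a b : W P4) : ev ρ (a * b).v = ev ρ a.v * ev ρ b.v := ev_mul ρ a.v b.v
lemma ev_Wsub (a b : W P4) : ev ρ (a - b).v = ev ρ a.v - ev ρ b.v := by
  show ev ρ (NPoly.add a.v (NPoly.mul (NPoly.cst (-1)) b.v)) = _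
  rw [ev_add, ev_mul, ev_cst]; simp; ring
lemma ev_Wk (n : ℤ) : ev ρ (W.k n : W P4).v = (n : S) := ev_cst ρ n
lemma ev_vX : ev ρ vX.v = ρ 0 := ev_pX ρ
lemma ev_vY : ev ρ vY.v = ρ 1 := by
  simp [vY, pX, ev, hev, cst, sh]
lemma ev_vZ : ev ρ vZ.v = ρ 2 := by
  simp [vZ, pX, ev, hev, cst, sh]
lemma ev_vV : ev ρ vV.v = ρ 3 := by
  simp [vV, pX, ev, hev, cst, sh]

/-- A polynomial together with a bound on its absolute evaluations. -/
structure Bd where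
  r : W P4
  b : (ℕ → ℤ) → ℤ
  h : ∀ ρ : ℕ → ℤ, (∀ i, 0 ≤ ρ i) → aev ρ r.v ≤ b ρ

instance : Add Bd := ⟨fun x y => ⟨x.r + y.r, fun ρ => x.b ρ + y.b ρ, fun ρ hρ =>
  (aev_add ρ hρ x.r.v y.r.v).trans (add_le_add (x.h ρ hρ) (y.h ρ hρ))⟩⟩

instance : Mul Bd := ⟨fun x y => ⟨x.r * y.r, fun ρ => x.b ρ * y.b ρ, fun ρ hρ =>
  (aev_mul ρ hρ x.r.v y.r.v).trans (mul_le_mul (x.h ρ hρ) (y.h ρ hρ)
    (aev_nonneg ρ hρ _) ((aev_nonneg ρ hρ _).trans (x.h ρ hρ)))⟩⟩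

instance : Sub Bd := ⟨fun x y => ⟨x.r - y.r, fun ρ => x.b ρ + y.b ρ, fun ρ hρ => by
  have h1 : aev ρ (NPoly.cst (-1) : P4) = 1 := by rw [aev_cst]; rfl
  refine (aev_add ρ hρ x.r.v _).trans (add_le_add (x.h ρ hρ) ?_)
  refine (aev_mul ρ hρ _ y.r.v).trans ?_
  rw [h1, one_mul]
  exact y.h ρ hρ⟩⟩

def Bd.k (n : ℤ) : Bd := ⟨W.k n, fun _ => |n|, fun ρ _ => le_of_eq (aev_cst ρ n)⟩

lemma aev_vY (σ : ℕ → ℤ) : aev σ vY.v = σ 1 := by
  simp [vY, pX, aev, hav, cst, sh]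
lemma aev_vZ (σ : ℕ → ℤ) : aev σ vZ.v = σ 2 := by
  simp [vZ, pX, aev, hav, cst, sh]
lemma aev_vV (σ : ℕ → ℤ) : aev σ vV.v = σ 3 := by
  simp [vV, pX, aev, hav, cst, sh]

def Bd.X : Bd := ⟨vX, fun ρ => ρ 0, fun ρ _ => le_of_eq (aev_pX ρ)⟩
def Bd.Y : Bd := ⟨vY, fun ρ => ρ 1, fun ρ _ => le_of_eq (aev_vY ρ)⟩
def Bd.Z : Bd := ⟨vZ, fun ρ => ρ 2, fun ρ _ => le_of_eq (aev_vZ ρ)⟩
def Bd.V : Bd := ⟨vV, fun ρ => ρ 3, fun ρ _ => le_of_eq (aev_vV ρ)⟩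

/-- Nested Bernstein coefficients as a polynomial. -/
def toPoly (C : P4) : P4 := fromBern (C.map fun p => fromBern (p.map fun q =>
  fromBern (q.map fun r => fromBern r)))

omit [CommRing S] in
lemma bhev_map {T U : Type} [CommRing U] (f : T → U) {T' : Type} (g : T' → T) (x y : U)
    (p : List T') : bhev f x y (p.map g) = bhev (fun a => f (g a)) x y p := by
  induction p with
  | nil => simp [bhev]
  | cons a p ih => simp [bhev, ih]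

lemma ev_toPoly (C : P4) :
    ev ρ (toPoly C) = bev4 (fun n => (n : S)) ρ (fun i => 1 - ρ i) C := by
  simp only [toPoly, bev4, ev_fromBern, bhev_map, sh]
  rfl

lemma aev_toPoly (σ : ℕ → ℤ) (hσ : ∀ i, 0 ≤ σ i) (C : P4) :
    aev σ (toPoly C) ≤ bev4 (fun n => |n|) σ (fun i => 1 + σ i) C := by
  have p0 : ∀ i, 0 ≤ 1 + σ i := fun i => by linarith [hσ i]
  refine (aev_fromBern σ hσ _).trans ?_
  rw [bhev_map]
  refine bhev_mono (fun p => ?_) _ _ (hσ 0) (p0 0) C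
  refine (aev_fromBern (sh σ) (fun i => hσ (i + 1)) _).trans ?_
  rw [bhev_map]
  refine bhev_mono (fun q => ?_) _ _ (hσ 1) (p0 1) p
  refine (aev_fromBern (sh (sh σ)) (fun i => hσ (i + 2)) _).trans ?_
  rw [bhev_map]
  refine bhev_mono (fun r => ?_) _ _ (hσ 2) (p0 2) q
  exact aev_fromBern (sh (sh (sh σ))) (fun i => hσ (i + 3)) r

/-- Core soundness statement. -/
theorem cert_sound (F : W P4) (hb : (ℕ → ℤ) → ℤ)
    (hF : ∀ ρ : ℕ → ℤ, (∀ i, 0 ≤ ρ i) → aev ρ F.v ≤ hb ρ)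
    (e0 e1 e2 e3 : ℕ) (C : P4)
    (h1 : ev (kpt e0 e1 e2 e3) F.v =
      bev4 (fun n => n) (kpt e0 e1 e2 e3) (fun i => 1 - kpt e0 e1 e2 e3 i) C)
    (h2 : C.all (fun p => p.all fun q => q.all fun r => r.all fun c => decide (0 ≤ c)) = true)
    (h3 : ∀ k < 4, 2 * (hb (mix (k + 1) (kpt e0 e1 e2 e3)) + bev4 (fun n => |n|)
      (mix (k + 1) (kpt e0 e1 e2 e3)) (fun i => 1 + mix (k + 1) (kpt e0 e1 e2 e3) i) C)
        < kpt e0 e1 e2 e3 k)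
    (σ : ℕ → ℝ) (hσ : ∀ i < 4, 0 ≤ σ i ∧ σ i ≤ 1) : 0 ≤ ev σ F.v := by
  set κ := kpt e0 e1 e2 e3 with hκdef
  have hκ : ∀ i, 0 ≤ κ i := by
    intro i; simp only [hκdef, kpt]; split_ifs <;> positivity
  let D : P4 := NPoly.add F.v (NPoly.mul (NPoly.cst (-1)) (toPoly C))
  have hD0 : ev κ D = 0 := by
    simp only [D, ev_add, ev_mul, ev_cst, ev_toPoly, h1]
    simp
  have hDb : ∀ k < dep P4, 2 * aev (mix (k + 1) κ) D < κ k := by
    intro k hk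
    have hm := mix_nonneg (k + 1) κ hκ
    have b1 := hF _ hm
    have b2 := aev_toPoly _ hm C
    have b3 := h3 k hk
    have b4 : aev (mix (k + 1) κ) D ≤
        aev (mix (k + 1) κ) F.v + aev (mix (k + 1) κ) (toPoly C) := by
      refine (aev_add _ hm _ _).trans (add_le_add le_rfl ?_)
      refine (aev_mul _ hm _ _).trans ?_
      rw [aev_cst]; simp
    linarith
  have hz := vanish κ hκ D hDb hD0 σ
  simp only [D, ev_add, ev_mul, ev_cst, ev_toPoly] at hz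
  have hnn : 0 ≤ bev4 (fun n => (n : ℝ)) σ (fun i => 1 - σ i) C := by
    simp only [List.all_eq_true, decide_eq_true_eq] at h2
    have b : ∀ i < 4, 0 ≤ 1 - σ i := fun i hi => by linarith [(hσ i hi).2]
    refine bhev_nonneg _ _ (hσ 0 (by norm_num)).1 (b 0 (by norm_num)) _ fun p hp => ?_
    refine bhev_nonneg _ _ (hσ 1 (by norm_num)).1 (b 1 (by norm_num)) _ fun q hq => ?_
    refine bhev_nonneg _ _ (hσ 2 (by norm_num)).1 (b 2 (by norm_num)) _ fun r hr => ?_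
    refine bhev_nonneg _ _ (hσ 3 (by norm_num)).1 (b 3 (by norm_num)) _ fun c hc => ?_
    exact_mod_cast h2 p hp q hq r hr c hc
  push_cast at hz
  linarith

end Vale.Agent.P154
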