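import Vale.Agent.P154.Recursion

/-!
Nonreconstruction for mean offspring at most one, through the mass of uninformative observations.
-/

namespace Vale.Agent.P154

open Filter Topology

variable {lam : ℝ} {ν : ℕ → ℝ}

/-- The likelihood of an observation that is independent of the root, and zero otherwise. -/
noncomputable def flatv (L : Fin 3 → ℝ) : ℝ :=
  if L 0 = L 1 ∧ L 0 = L 2 then L 0 else 0

lemma flatv_nonneg {L : Fin 3 → ℝ} (h : ∀ i, 0 ≤ L i) : 0 ≤ flatv L := by
  unfold flatv; split_ifs <;> simp [h 0]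

lemma flatv_le_pP {L : Fin 3 → ℝ} (h : ∀ i, 0 ≤ L i) : flatv L ≤ pP L := by
  unfold flatv; split_ifs with hf
  · simp only [pP]; linarith [hf.1, hf.2]
  · exact pP_nonneg h

lemma adm_flatv : Adm flatv := ⟨1, fun L h => by
  rw [abs_of_nonneg (flatv_nonneg h), one_mul]; exact flatv_le_pP h⟩

lemma flatv_smul (c : ℝ) (L : Fin 3 → ℝ) : flatv (fun i => c * L i) = c * flatv L := by
  by_cases hc : c = 0
  · simp [flatv, hc]
  · simp [flatv, hc]

lemma flatv_mixv {L : Fin 3 → ℝ} (h0 : 0 ≤ lam) (h1 : lam ≤ 1) (hL : ∀ i, 0 ≤ L i) :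
    flatv L ≤ flatv (mixv lam L) := by
  by_cases hf : L 0 = L 1 ∧ L 0 = L 2
  · have e : ∀ i, mixv lam L i = L 0 := fun i => by
      have hi : L i = L 0 := by fin_cases i <;> simp [hf.1.symm, hf.2.symm]
      rw [mixv, hi, pP, ← hf.1, ← hf.2]; ring
    rw [flatv, flatv, if_pos hf, if_pos ⟨by rw [e, e], by rw [e, e]⟩, e]
  · rw [show flatv L = 0 from if_neg hf]
    exact flatv_nonneg (mixv_nonneg h0 h1 hL)

lemma flatv_mul {a b : Fin 3 → ℝ} (ha : ∀ i, 0 ≤ a i) (hb : ∀ i, 0 ≤ b i) :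
    flatv a * flatv b ≤ flatv (fun i => a i * b i) := by
  by_cases hf : (a 0 = a 1 ∧ a 0 = a 2) ∧ (b 0 = b 1 ∧ b 0 = b 2)
  · simp [flatv, hf.1.1.symm, hf.1.2.symm, hf.2.1.symm, hf.2.2.symm]
  · have : flatv a * flatv b = 0 := by
      rcases not_and_or.mp hf with h | h <;> simp [flatv, h]
    rw [this]
    exact flatv_nonneg fun i => mul_nonneg (ha i) (hb i)

lemma Chan.flat_star (A B : Chan) : A.E flatv * B.E flatv ≤ (A.star B).E flatv := by
  have hA : HasSum (fun y => flatv (A.V y)) (A.E flatv) := (A.summable adm_flatv).hasSum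
  have hB : HasSum (fun y => flatv (B.V y)) (B.E flatv) := (B.summable adm_flatv).hasSum
  have hS : HasSum (fun y : A.ι × B.ι => flatv ((A.star B).V y)) ((A.star B).E flatv) :=
    ((A.star B).summable adm_flatv).hasSum
  have hp : HasSum (fun y : A.ι × B.ι => flatv (A.V y.1) * flatv (B.V y.2))
      (A.E flatv * B.E flatv) :=
    hasSum_prod_nonneg (f := fun y => flatv (A.V y)) (g := fun y => flatv (B.V y)) hA hB
      (fun y => flatv_nonneg (A.nonneg y)) (fun y => flatv_nonneg (B.nonneg y))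
  refine hasSum_le (f := fun y : A.ι × B.ι => flatv (A.V y.1) * flatv (B.V y.2))
    (g := fun y : A.ι × B.ι => flatv ((A.star B).V y)) ?_ hp hS
  intro y
  have e : (A.star B).V y = fun i => A.V y.1 i * B.V y.2 i := rfl
  rw [e]
  exact flatv_mul (A.nonneg y.1) (B.nonneg y.2)

lemma Chan.flat_pow (C : Chan) : ∀ k : ℕ, C.E flatv ^ k ≤ (C.pw k).E flatv := by
  intro k
  induction k with
  | zero => rw [C.E_pw_zero]; simp [flatv]
  | succ k ih =>
    rw [C.E_pw_succ, pow_succ']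
    exact (mul_le_mul_of_nonneg_left ih (C.E_nonneg fun L hL => flatv_nonneg hL)).trans
      (C.flat_star (C.pw k))

lemma one_sub_pow_le {u : ℝ} (u0 : 0 ≤ u) (u1 : u ≤ 1) :
    ∀ k : ℕ, 1 - (1 - u) ^ k ≤ k * u ∧ (2 ≤ k → 1 - (1 - u) ^ k ≤ k * u - u ^ 2) := by
  intro k
  induction k with
  | zero => simp
  | succ k ih =>
    have e : 1 - (1 - u) ^ (k + 1) = (1 - (1 - u) ^ k) * (1 - u) + u := by ring
    have v : 0 ≤ 1 - u := by linarith
    have hk : (0 : ℝ) ≤ k := Nat.cast_nonneg k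
    refine ⟨?_, fun h2 => ?_⟩
    · rw [e]; push_cast; nlinarith [mul_le_mul_of_nonneg_right ih.1 v, mul_nonneg hk (mul_self_nonneg u)]
    · rcases Nat.eq_or_lt_of_le h2 with he | hl
      · obtain rfl : k = 1 := by omega
        norm_num; ring_nf; simp
      · rw [e]; push_cast
        have k1 : (1 : ℝ) ≤ k := by exact_mod_cast (by omega : 1 ≤ k)
        nlinarith [mul_le_mul_of_nonneg_right (ih.2 (by omega)) v,
          mul_le_mul_of_nonneg_right k1 (mul_self_nonneg u),
          mul_nonneg (sub_nonneg.mpr u1) (mul_self_nonneg u)]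

/-- Nonreconstruction when the mean offspring number is at most one. -/
theorem nonrecon_mean_le_one (h0 : 0 ≤ lam) (h1 : lam ≤ 1) (hν : ∀ k, 0 ≤ ν k) (hν1 : HasSum ν 1)
    {m : ℝ} (hm : HasSum (fun k => ν k * k) m) (hk : ∃ k₀, 2 ≤ k₀ ∧ 0 < ν k₀) (hle : m ≤ 1) :
    Tendsto (advantage 3 lam ν) atTop (𝓝 0) := by
  obtain ⟨k₀, hk₀, hpos⟩ := hk
  set T := treeChan h0 h1 hν hν1
  have hle1 : ∀ C : Chan, C.E flatv ≤ 1 := fun C =>
    hasSum_le (fun y => flatv_le_pP (C.nonneg y)) (C.summable adm_flatv).hasSum C.hasSum_pP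
  have hge : ∀ C : Chan, 0 ≤ C.E flatv := fun C => C.E_nonneg fun L hL => flatv_nonneg hL
  have hu : ∀ n, 0 ≤ 1 - (T n).E flatv := fun n => sub_nonneg.mpr (hle1 _)
  have step : ∀ n, 1 - (T (n + 1)).E flatv ≤
      m * (1 - (T n).E flatv) - ν k₀ * (1 - (T n).E flatv) ^ 2 := by
    intro n
    rw [tree_succ]
    set M := (T n).mix lam h0 h1
    have hm' : (T n).E flatv ≤ M.E flatv :=
      hasSum_le (fun y => flatv_mixv h0 h1 ((T n).nonneg y)) ((T n).summable adm_flatv).hasSum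
        (M.summable adm_flatv).hasSum
    set u := 1 - (T n).E flatv
    have hsum := hν1.sub (M.hasSum_node ν hν hν1 adm_flatv flatv_smul)
    refine hasSum_le (fun k => ?_) hsum
      ((hm.mul_right u).sub (hasSum_ite_eq k₀ (ν k₀ * u ^ 2)))
    have hp : (1 - u) ^ k ≤ (M.pw k).E flatv := by
      refine le_trans (pow_le_pow_left₀ (by simp [u, hge]) ?_ k) (M.flat_pow k)
      simpa [u] using hm'
    have hb := one_sub_pow_le (hu n) (by simpa [u] using hge (T n)) k
    split_ifs with hkk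
    · subst hkk
      nlinarith [mul_le_mul_of_nonneg_left (hb.2 hk₀) (hν k), mul_le_mul_of_nonneg_left hp (hν k)]
    · nlinarith [mul_le_mul_of_nonneg_left hb.1 (hν k), mul_le_mul_of_nonneg_left hp (hν k)]
  have hz := tendsto_zero_of_quad hu hle hpos step
  refine squeeze_zero (g := fun n => 4 * (1 - (T n).E flatv)) (fun n => ?_) (fun n => ?_)
    (by simpa using hz.const_mul 4)
  · rw [advantage_eq h0 h1 hν hν1]
    exact (T n).E_nonneg fun L _ => by unfold fA; positivity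
  · rw [advantage_eq h0 h1 hν hν1]
    refine hasSum_le (fun y => ?_) ((T n).summable adm_fA).hasSum
      (((T n).hasSum_pP.sub ((T n).summable adm_flatv).hasSum).mul_left 4)
    have hL := (T n).nonneg y
    generalize (T n).V y = L at hL ⊢
    by_cases hf : L 0 = L 1 ∧ L 0 = L 2
    · have : pP L = L 0 := by simp [pP, ← hf.1, ← hf.2]; ring
      rw [fA_eq, this, ← hf.1, ← hf.2, flatv, if_pos hf]; simp
    · obtain ⟨c, hc⟩ := adm_fA
      rw [show flatv L = 0 from if_neg hf, sub_zero, fA_eq]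
      have := pP_nonneg hL
      have b : ∀ i, |L i - pP L| ≤ 4 * pP L := fun i => by
        have := le_three_pP hL i; have := hL i
        rw [abs_le]; constructor <;> linarith
      linarith [b 0, b 1, b 2]

/-- Nonreconstruction for all `lam ∈ [0,1]` whenever `m lam² ≤ 1`. -/
theorem nonrecon_of_le (h0 : 0 ≤ lam) (h1 : lam ≤ 1) (hν : ∀ k, 0 ≤ ν k) (hν1 : HasSum ν 1)
    {m : ℝ} (hm : HasSum (fun k => ν k * k) m) (hk : ∃ k₀, 2 ≤ k₀ ∧ 0 < ν k₀)
    (hle : m * lam ^ 2 ≤ 1) : Tendsto (advantage 3 lam ν) atTop (𝓝 0) := by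
  rcases h1.lt_or_eq with hl | hl
  · exact nonrecon_lt_one h0 hl hν hν1 hm hk hle
  · subst hl
    exact nonrecon_mean_le_one h0 le_rfl hν hν1 hm hk (by simpa using hle)

end Vale.Agent.P154
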