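import Vale.Agent.P154.Scalar

/-!
The three functionals of a three-coordinate likelihood vector and their behaviour when two
symmetrised channels are combined.
-/

namespace Vale.Agent.P154

/-- Mean coordinate. -/
noncomputable def pP (L : Fin 3 → ℝ) : ℝ := (L 0 + L 1 + L 2) / 3
/-- Chi-square functional. -/
noncomputable def fB (L : Fin 3 → ℝ) : ℝ := (L 0 ^ 2 + L 1 ^ 2 + L 2 ^ 2) / 3 / pP L - pP L
/-- One pair of the Le Cam functional. -/
noncomputable def prTerm (a b : ℝ) : ℝ := (a - b) ^ 2 / (a + b)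
/-- Le Cam functional. -/
noncomputable def fL (L : Fin 3 → ℝ) : ℝ :=
  2 / 9 * (prTerm (L 0) (L 1) + prTerm (L 0) (L 2) + prTerm (L 1) (L 2))
/-- The invariant functional. -/
noncomputable def fP (L : Fin 3 → ℝ) : ℝ := fB L - fL L
/-- Geometric functional. -/
noncomputable def fH (L : Fin 3 → ℝ) : ℝ := L 0 * L 1 * L 2 / pP L ^ 2
/-- Complement of the geometric functional. -/
noncomputable def fG (L : Fin 3 → ℝ) : ℝ := pP L - fH L

/-- Average of `F` over the products of `L` with the six rearrangements of `M`. -/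
noncomputable def avg6 (F : (Fin 3 → ℝ) → ℝ) (L M : Fin 3 → ℝ) : ℝ :=
  (F ![L 0 * M 0, L 1 * M 1, L 2 * M 2] + F ![L 0 * M 1, L 1 * M 2, L 2 * M 0]
    + F ![L 0 * M 2, L 1 * M 0, L 2 * M 1] + F ![L 0 * M 1, L 1 * M 0, L 2 * M 2]
    + F ![L 0 * M 0, L 1 * M 2, L 2 * M 1] + F ![L 0 * M 2, L 1 * M 1, L 2 * M 0]) / 6

lemma avg6_sub (F G : (Fin 3 → ℝ) → ℝ) (L M : Fin 3 → ℝ) :
    avg6 (fun v => F v - G v) L M = avg6 F L M - avg6 G L M := by
  simp only [avg6]; ring

lemma avg6_pP (L M : Fin 3 → ℝ) : avg6 pP L M = pP L * pP M := by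
  simp [avg6, pP]; ring

lemma pair_le {a b c e : ℝ} (ha : 0 < a) (hb : 0 < b) (hc : 0 < c) (he : 0 < e) :
    prTerm (a * c) (b * e) + prTerm (a * e) (b * c) ≤
      prTerm a b * (c + e) + (a + b) * prTerm c e - prTerm a b * prTerm c e := by
  have key : prTerm a b * (c + e) + (a + b) * prTerm c e - prTerm a b * prTerm c e
      - (prTerm (a * c) (b * e) + prTerm (a * e) (b * c)) =
      4 * (a - b) ^ 2 * (c - e) ^ 2 * (a * b * c * e) /
        ((a + b) * (c + e) * (a * c + b * e) * (a * e + b * c)) := by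
    simp only [prTerm]
    field_simp
    ring
  have : 0 ≤ 4 * (a - b) ^ 2 * (c - e) ^ 2 * (a * b * c * e) /
        ((a + b) * (c + e) * (a * c + b * e) * (a * e + b * c)) := by positivity
  linarith

lemma prTerm_comm (a b : ℝ) : prTerm a b = prTerm b a := by
  rw [prTerm, prTerm, add_comm b a]; congr 1; ring

theorem avg6_fL_le (L M : Fin 3 → ℝ) (hL : ∀ i, 0 < L i) (hM : ∀ i, 0 < M i) :
    avg6 fL L M ≤ fL L * pP M + pP L * fL M - 3 / 4 * (fL L * fL M) := by
  have h := fun i j k l => pair_le (hL i) (hL j) (hM k) (hM l)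
  have e : ∀ i j, prTerm (M i) (M j) = prTerm (M j) (M i) := fun i j => prTerm_comm _ _
  have a1 := h 0 1 0 1; have a2 := h 0 1 0 2; have a3 := h 0 1 1 2
  have b1 := h 0 2 0 1; have b2 := h 0 2 0 2; have b3 := h 0 2 1 2
  have c1 := h 1 2 0 1; have c2 := h 1 2 0 2; have c3 := h 1 2 1 2
  simp only [avg6, fL, pP, Matrix.cons_val_zero, Matrix.cons_val_one, Matrix.cons_val]
  linarith

/-- Normalised coordinates. -/
lemma normalise (L : Fin 3 → ℝ) (hL : ∀ i, 0 < L i) :
    ∃ c x y : ℝ, 0 < c ∧ L 0 = c * (1 + x) ∧ L 1 = c * (1 + y) ∧ L 2 = c * (1 + (-x - y)) ∧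
      0 < 1 + x ∧ 0 < 1 + y ∧ 0 < 1 + (-x - y) := by
  have hc : 0 < pP L := by
    have := hL 0; have := hL 1; have := hL 2
    unfold pP; positivity
  refine ⟨pP L, L 0 / pP L - 1, L 1 / pP L - 1, hc, ?_, ?_, ?_, ?_, ?_, ?_⟩
  · field_simp; ring
  · field_simp; ring
  · field_simp; simp only [pP]; ring
  · have := div_pos (hL 0) hc; linarith
  · have := div_pos (hL 1) hc; linarith
  · have e : 1 + (-(L 0 / pP L - 1) - (L 1 / pP L - 1)) = L 2 / pP L := by
      field_simp; simp only [pP]; ring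
    rw [e]; exact div_pos (hL 2) hc

lemma pP_norm (c x y : ℝ) : pP ![c * (1 + x), c * (1 + y), c * (1 + (-x - y))] = c := by
  simp [pP]; ring

lemma fB_norm {c : ℝ} (hc : 0 < c) (x y : ℝ) :
    fB ![c * (1 + x), c * (1 + y), c * (1 + (-x - y))] = c * iA x y := by
  rw [fB, pP_norm]
  simp [iA]
  field_simp
  ring

lemma fH_norm {c : ℝ} (hc : 0 < c) (x y : ℝ) :
    fH ![c * (1 + x), c * (1 + y), c * (1 + (-x - y))] = c * (1 - 3 / 2 * iA x y + iT x y) := by
  rw [fH, pP_norm, ← prod_eq]
  simp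
  field_simp

lemma fL_norm {c : ℝ} (hc : 0 < c) (x y : ℝ) (hx : 0 < 1 + x) (hy : 0 < 1 + y)
    (hz : 0 < 1 + (-x - y)) :
    fL ![c * (1 + x), c * (1 + y), c * (1 + (-x - y))] =
      c * ((8 * iA x y - 4 * iT x y - 2 * iA x y ^ 2) / (8 - 3 * iA x y - iT x y)) := by
  set z := -x - y with hzdef
  have p1 : 0 < 2 - z := by linarith
  have p2 : 0 < 2 - y := by linarith
  have p3 : 0 < 2 - x := by linarith
  have e1 : prTerm (c * (1 + x)) (c * (1 + y)) = c * (x - y) ^ 2 / (2 - z) := by
    rw [prTerm, show c * (1 + x) + c * (1 + y) = c * (2 - z) by rw [hzdef]; ring,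
      div_eq_div_iff (by positivity) p1.ne']; ring
  have e2 : prTerm (c * (1 + x)) (c * (1 + z)) = c * (x - z) ^ 2 / (2 - y) := by
    rw [prTerm, show c * (1 + x) + c * (1 + z) = c * (2 - y) by rw [hzdef]; ring,
      div_eq_div_iff (by positivity) p2.ne']; ring
  have e3 : prTerm (c * (1 + y)) (c * (1 + z)) = c * (y - z) ^ 2 / (2 - x) := by
    rw [prTerm, show c * (1 + y) + c * (1 + z) = c * (2 - x) by rw [hzdef]; ring,
      div_eq_div_iff (by positivity) p3.ne']; ring
  rw [← sigma_eq, ← hzdef]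
  simp only [fL, Matrix.cons_val_zero, Matrix.cons_val_one, Matrix.cons_val, e1, e2, e3]
  have key := lecam_eq x y
  rw [← hzdef] at key
  rw [div_add_div _ _ p1.ne' p2.ne', div_add_div _ _ (by positivity) p3.ne',
    ← mul_div_assoc, ← mul_div_assoc, div_eq_div_iff (by positivity) (by positivity)]
  linear_combination (2 / 9 * c * ((2 - x) * (2 - y) * (2 - z))) * key

/-- The contribution of one product to the chi-square functional. -/
lemma fB_star {c d : ℝ} (hc : 0 < c) (hd : 0 < d) (x y z a b e : ℝ) (hz : x + y + z = 0)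
    (he : a + b + e = 0) (hZ : zK x y z a b e ≠ 0) :
    fB ![c * (1 + x) * (d * (1 + a)), c * (1 + y) * (d * (1 + b)),
        c * (1 + z) * (d * (1 + e))] =
      c * d * (nK x y z a b e / zK x y z a b e - zK x y z a b e) := by
  have hp : pP ![c * (1 + x) * (d * (1 + a)), c * (1 + y) * (d * (1 + b)),
        c * (1 + z) * (d * (1 + e))] = c * d * zK x y z a b e := by
    simp [pP, zK]
    linear_combination (c * d / 3) * hz + (c * d / 3) * he
  rw [fB, hp]
  simp only [Matrix.cons_val_zero, Matrix.cons_val_one, Matrix.cons_val]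
  have hn : ((c * (1 + x) * (d * (1 + a))) ^ 2 + (c * (1 + y) * (d * (1 + b))) ^ 2
      + (c * (1 + z) * (d * (1 + e))) ^ 2) / 3 = (c * d) ^ 2 * nK x y z a b e := by
    simp only [nK]; ring
  rw [hn]
  field_simp

lemma zK_pos {x y z a b e : ℝ} (hz : x + y + z = 0) (he : a + b + e = 0)
    (h1 : 0 < 1 + x) (h2 : 0 < 1 + y) (h3 : 0 < 1 + z)
    (k1 : 0 < 1 + a) (k2 : 0 < 1 + b) (k3 : 0 < 1 + e) : 0 < zK x y z a b e := by
  have : zK x y z a b e = ((1 + x) * (1 + a) + (1 + y) * (1 + b) + (1 + z) * (1 + e)) / 3 := by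
    simp only [zK]; linear_combination -(1 / 3 : ℝ) * hz - (1 / 3 : ℝ) * he
  rw [this]; positivity

lemma class_div (x y a b : ℝ)
    (h1 : zK x y (-x - y) a b (-a - b) ≠ 0) (h2 : zK x y (-x - y) b (-a - b) a ≠ 0)
    (h3 : zK x y (-x - y) (-a - b) a b ≠ 0) :
    nK x y (-x - y) a b (-a - b) / zK x y (-x - y) a b (-a - b)
    + nK x y (-x - y) b (-a - b) a / zK x y (-x - y) b (-a - b) a
    + nK x y (-x - y) (-a - b) a b / zK x y (-x - y) (-a - b) a b
    = 3 * (1 + iA x y + iA a b) + 3 *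
      (clN (iA x y) (iT x y) (iA a b) (iT a b) (lCl x y a b) /
        clD (iA x y) (iA a b) (lCl x y a b)) := by
  have key := class_sum x y a b
  have hD : clD (iA x y) (iA a b) (lCl x y a b) = dCl x y a b := by
    simp only [clD, lCl]; ring
  have hne : dCl x y a b ≠ 0 := mul_ne_zero (mul_ne_zero h1 h2) h3
  rw [hD]
  generalize nK x y (-x - y) a b (-a - b) = n1 at key
  generalize nK x y (-x - y) b (-a - b) a = n2 at key
  generalize nK x y (-x - y) (-a - b) a b = n3 at key
  rw [dCl] at key hne ⊢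
  generalize zK x y (-x - y) a b (-a - b) = z1 at key hne h1 ⊢
  generalize zK x y (-x - y) b (-a - b) a = z2 at key hne h2 ⊢
  generalize zK x y (-x - y) (-a - b) a b = z3 at key hne h3 ⊢
  have key' : n1 * (z2 * z3) + n2 * (z3 * z1) + n3 * (z1 * z2) =
      3 * (1 + iA x y + iA a b) * (z1 * z2 * z3) +
        3 * clN (iA x y) (iT x y) (iA a b) (iT a b) (lCl x y a b) := by
    simp only [clN]; linear_combination key
  generalize clN (iA x y) (iT x y) (iA a b) (iT a b) (lCl x y a b) = N at key' ⊢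
  field_simp
  linear_combination key'

theorem kernel_main (L M : Fin 3 → ℝ) (hL : ∀ i, 0 < L i) (hM : ∀ i, 0 < M i) :
    avg6 fB L M ≤ fB L * pP M + pP L * fB M
        - 13 / 16 * (fP L * fG M + fG L * fP M) - 1 / 25 * (fB L * fB M) ∧
      fP L * fH M + fH L * fP M ≤ avg6 fP L M := by
  have hLC := avg6_fL_le L M hL hM
  obtain ⟨c, x, y, hc, l0, l1, l2, hx, hy, hz⟩ := normalise L hL
  obtain ⟨d, a, b, hd, m0, m1, m2, ha, hb, he⟩ := normalise M hM
  have eL : L = ![c * (1 + x), c * (1 + y), c * (1 + (-x - y))] := by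
    funext i; fin_cases i <;> simp [l0, l1, l2]
  have eM : M = ![d * (1 + a), d * (1 + b), d * (1 + (-a - b))] := by
    funext i; fin_cases i <;> simp [m0, m1, m2]
  have zp : ∀ p q r : ℝ, p + q + r = 0 → 0 < 1 + p → 0 < 1 + q → 0 < 1 + r →
      0 < zK x y (-x - y) p q r := fun p q r s t u w => zK_pos (by ring) s hx hy hz t u w
  have z1 := zp a b (-a - b) (by ring) ha hb he
  have z2 := zp b (-a - b) a (by ring) hb he ha
  have z3 := zp (-a - b) a b (by ring) he ha hb
  have z4 := zp b a (-b - a) (by ring) hb ha (by linarith)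
  have z5 := zp a (-b - a) b (by ring) ha (by linarith) hb
  have z6 := zp (-b - a) b a (by ring) (by linarith) hb ha
  have d1 := class_div x y a b z1.ne' z2.ne' z3.ne'
  have d2 := class_div x y b a z4.ne' z5.ne' z6.ne'
  rw [iA_comm a b, iT_comm a b] at d2
  have hDp : 0 < clD (iA x y) (iA a b) (lCl x y a b) := by
    rw [show clD (iA x y) (iA a b) (lCl x y a b) = dCl x y a b by simp only [clD, lCl]; ring,
      dCl]
    positivity
  have hDm : 0 < clD (iA x y) (iA a b) (lCl x y b a) := by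
    rw [show clD (iA x y) (iA a b) (lCl x y b a) = dCl x y b a by
      simp only [clD, lCl, iA_comm a b]; ring, dCl]
    positivity
  have su : 0 < 8 - 3 * iA x y - iT x y := by
    rw [← sigma_eq]
    have : 0 < 2 - x := by linarith
    have : 0 < 2 - y := by linarith
    have : 0 < 2 - (-x - y) := by linarith
    positivity
  have sw : 0 < 8 - 3 * iA a b - iT a b := by
    rw [← sigma_eq]
    have : 0 < 2 - a := by linarith
    have : 0 < 2 - b := by linarith
    have : 0 < 2 - (-a - b) := by linarith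
    positivity
  obtain ⟨sI, sII⟩ := scalar_main
    (inDom_of x y (by linarith) (by linarith) (by linarith))
    (inDom_of a b (by linarith) (by linarith) (by linarith))
    (lCl_add x y a b) (lCl_mul x y a b) hDp hDm su sw
  set K := (clN (iA x y) (iT x y) (iA a b) (iT a b) (lCl x y a b) /
        clD (iA x y) (iA a b) (lCl x y a b) +
      clN (iA x y) (iT x y) (iA a b) (iT a b) (lCl x y b a) /
        clD (iA x y) (iA a b) (lCl x y b a)) / 2 with hK
  have hS : avg6 fB L M = c * d * (iA x y + iA a b + K) := by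
    rw [eL, eM]
    simp only [avg6, Matrix.cons_val_zero, Matrix.cons_val_one, Matrix.cons_val]
    rw [fB_star hc hd x y (-x - y) a b (-a - b) (by ring) (by ring) z1.ne',
      fB_star hc hd x y (-x - y) b (-a - b) a (by ring) (by ring) z2.ne',
      fB_star hc hd x y (-x - y) (-a - b) a b (by ring) (by ring) z3.ne']
    rw [show (-a - b : ℝ) = -b - a by ring] at d1 ⊢
    rw [fB_star hc hd x y (-x - y) b a (-b - a) (by ring) (by ring) z4.ne',
      fB_star hc hd x y (-x - y) a (-b - a) b (by ring) (by ring) z5.ne',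
      fB_star hc hd x y (-x - y) (-b - a) b a (by ring) (by ring) z6.ne']
    have hz6 : zK x y (-x - y) a b (-b - a) + zK x y (-x - y) b (-b - a) a
        + zK x y (-x - y) (-b - a) a b + zK x y (-x - y) b a (-b - a)
        + zK x y (-x - y) a (-b - a) b + zK x y (-x - y) (-b - a) b a = 6 := by
      simp only [zK]; ring
    rw [hK]
    linear_combination (c * d / 6) * d1 + (c * d / 6) * d2 - (c * d / 6) * hz6
  have hP : avg6 fP L M = avg6 fB L M - avg6 fL L M := avg6_sub fB fL L M
  have vB := fB_norm hc x y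
  have wB := fB_norm hd a b
  have vL := fL_norm hc x y hx hy hz
  have wL := fL_norm hd a b ha hb he
  have vP := pP_norm c x y
  have wP := pP_norm d a b
  have vH := fH_norm hc x y
  have wH := fH_norm hd a b
  rw [← eL] at vB vL vP vH
  rw [← eM] at wB wL wP wH
  set A := iA x y
  set T := iT x y
  set B := iA a b
  set S := iT a b
  have vp : fP L = c * ((4 * T - A * T - A ^ 2) / (8 - 3 * A - T)) := by
    rw [fP, vB, vL, ← mul_sub, sub_div' su.ne']; congr 2; ring
  have wp : fP M = d * ((4 * S - B * S - B ^ 2) / (8 - 3 * B - S)) := by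
    rw [fP, wB, wL, ← mul_sub, sub_div' sw.ne']; congr 2; ring
  have vg : fG L = c * (3 / 2 * A - T) := by rw [fG, vP, vH]; ring
  have wg : fG M = d * (3 / 2 * B - S) := by rw [fG, wP, wH]; ring
  have cd : 0 < c * d := by positivity
  have hlc := hLC
  rw [vL, wL, vP, wP] at hlc
  generalize hp : (4 * T - A * T - A ^ 2) / (8 - 3 * A - T) = p at sI sII vp
  generalize hq : (4 * S - B * S - B ^ 2) / (8 - 3 * B - S) = r at sI sII wp
  generalize hl : (8 * A - 4 * T - 2 * A ^ 2) / (8 - 3 * A - T) = l at sII vL hlc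
  generalize hm : (8 * B - 4 * S - 2 * B ^ 2) / (8 - 3 * B - S) = m at sII wL hlc
  constructor
  · have h0 := mul_nonneg cd.le (neg_nonneg.mpr sI)
    rw [hS, vB, wB, vp, wp, vg, wg, vP, wP]
    linarith
  · have h0 := mul_nonneg cd.le sII
    have h5 : fP L * fH M + fH L * fP M =
        fP L * d + c * fP M - (fP L * fG M + fG L * fP M) := by
      rw [fG, fG, vP, wP]; ring
    have h8 : fP L * d + c * fP M = c * d * A + c * d * B - (fL L * d + c * fL M) := by
      rw [fP, fP, vB, wB]; ring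
    rw [hP, h5, hS, h8, vp, wp, vg, wg, vL, wL]
    linarith

end Vale.Agent.P154
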