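import Vale.Agent.P154.Model

/-!
The census bound: reconstruction when the mean offspring number times `λ²` exceeds one.

The estimator is the centred number of vertices of spin `0` at level `n`.  Its mean given the
root spin grows like `(mλ)^n` and its second moment like `(mλ)^(2n)`, which bounds the total
variation advantage from below.
-/

namespace Vale.Agent.P154

open scoped BigOperators

lemma hasSum_mul_pair {α β : Type} {f : α → ℝ} {g : β → ℝ} {a b : ℝ} (hf : HasSum f a)
    (hg : HasSum g b) : HasSum (fun p : α × β => f p.1 * g p.2) (a * b) :=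
  hf.mul hg (summable_mul_of_summable_norm hf.summable.norm hg.summable.norm)

lemma summable_mul_of_sq {α : Type} {w s : α → ℝ} (w0 : ∀ y, 0 ≤ w y) (h0 : Summable w)
    (h2 : Summable fun y => w y * s y ^ 2) : Summable fun y => w y * s y := by
  refine Summable.of_norm_bounded (h0.add h2) fun y => ?_
  rw [Real.norm_eq_abs, abs_mul, abs_of_nonneg (w0 y)]
  nlinarith [w0 y, sq_abs (s y), sq_nonneg (|s y| - 1)]

/-- First two moments of a sum over independent copies. -/
lemma iid_moments {ι : Type} {μ s : ι → ℝ} {a b : ℝ} (h1 : HasSum μ 1)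
    (ha : HasSum (fun y => μ y * s y) a) (hb : HasSum (fun y => μ y * s y ^ 2) b) : ∀ k : ℕ,
    HasSum (fun y : Fin k → ι => ∏ c, μ (y c)) 1 ∧
      HasSum (fun y : Fin k → ι => (∏ c, μ (y c)) * ∑ c, s (y c)) (k * a) ∧
      HasSum (fun y : Fin k → ι => (∏ c, μ (y c)) * (∑ c, s (y c)) ^ 2)
        (k * (b - a ^ 2) + (k : ℝ) ^ 2 * a ^ 2) := by
  intro k
  induction k with
  | zero =>
    have key : ∀ f : (Fin 0 → ι) → ℝ, HasSum f (f Fin.elim0) := fun f =>
      hasSum_single Fin.elim0 fun y hy => absurd (funext fun c => c.elim0) hy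
    refine ⟨?_, ?_, ?_⟩
    · simpa only [Finset.univ_eq_empty, Finset.prod_empty] using key fun y => ∏ c, μ (y c)
    · have := key fun y => (∏ c, μ (y c)) * ∑ c, s (y c)
      simp at this ⊢
    · have := key fun y => (∏ c, μ (y c)) * (∑ c, s (y c)) ^ 2
      simp at this ⊢
  | succ k ih =>
    obtain ⟨i1, i2, i3⟩ := ih
    have tr : ∀ (f : (Fin (k + 1) → ι) → ℝ) (g : ι × (Fin k → ι) → ℝ) (v : ℝ), HasSum g v →
        (∀ p : ι × (Fin k → ι), f (Fin.cons p.1 p.2) = g p) → HasSum f v := by
      intro f g v hg hfg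
      refine (Equiv.hasSum_iff (f := f) (Fin.consEquiv fun _ : Fin (k + 1) => ι)).mp ?_
      exact hg.congr_fun fun p => hfg p
    have p11 := hasSum_mul_pair h1 i1
    refine ⟨?_, ?_, ?_⟩
    · refine tr _ _ _ (by simpa using p11) fun p => ?_
      simp [Fin.prod_univ_succ]
    · have := (hasSum_mul_pair ha i1).add (hasSum_mul_pair h1 i2)
      rw [show ((k + 1 : ℕ) : ℝ) * a = a * 1 + 1 * (k * a) by push_cast; ring]
      refine tr _ _ _ this fun p => ?_
      simp [Fin.prod_univ_succ, Fin.sum_univ_succ]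
      ring
    · have := ((hasSum_mul_pair hb i1).add ((hasSum_mul_pair ha i2).mul_left 2)).add
        (hasSum_mul_pair h1 i3)
      rw [show ((k + 1 : ℕ) : ℝ) * (b - a ^ 2) + ((k + 1 : ℕ) : ℝ) ^ 2 * a ^ 2 =
        b * 1 + 2 * (a * (k * a)) + 1 * (k * (b - a ^ 2) + (k : ℝ) ^ 2 * a ^ 2) by
          push_cast; ring]
      refine tr _ _ _ this fun p => ?_
      simp [Fin.prod_univ_succ, Fin.sum_univ_succ]
      ring

variable {q : ℕ} {lam : ℝ}

lemma potts_nonneg (hq : 2 ≤ q) (l0 : -(1 / ((q : ℝ) - 1)) ≤ lam) (l1 : lam ≤ 1) (i j : Fin q) :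
    0 ≤ potts q lam i j := by
  have hq' : (2 : ℝ) ≤ q := by exact_mod_cast hq
  have h : 0 ≤ lam * ((q : ℝ) - 1) + 1 := by
    rw [neg_div'] at l0
    rw [div_le_iff₀ (by linarith)] at l0
    linarith
  unfold potts
  split_ifs
  · rw [show lam * 1 + (1 - lam) / (q : ℝ) = (lam * ((q : ℝ) - 1) + 1) / q by field_simp; ring]
    positivity
  · have : 0 ≤ 1 - lam := by linarith
    rw [mul_zero, zero_add]
    positivity

lemma sum_potts (hq : 2 ≤ q) (i : Fin q) : ∑ j, potts q lam i j = 1 := by
  have : (q : ℝ) ≠ 0 := by positivity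
  simp [potts, Finset.sum_add_distrib]
  field_simp
  ring

lemma sum_potts_mul (f : Fin q → ℝ) (i : Fin q) :
    ∑ j, potts q lam i j * f j = lam * f i + (1 - lam) / q * ∑ j, f j := by
  simp [potts, add_mul, Finset.sum_add_distrib, Finset.mul_sum]

/-- The centred indicator of the spin `0`. -/
noncomputable def cen (q : ℕ) (i : Fin q) : ℝ := (if (i : ℕ) = 0 then 1 else 0) - 1 / q

lemma cen_sq_le (hq : 2 ≤ q) (i : Fin q) : cen q i ^ 2 ≤ 1 := by
  have hq' : (2 : ℝ) ≤ q := by exact_mod_cast hq
  have h0 : 0 ≤ 1 / (q : ℝ) := by positivity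
  have h1 : 1 / (q : ℝ) ≤ 1 := by rw [div_le_one (by linarith)]; linarith
  unfold cen
  split_ifs <;> nlinarith

lemma sum_cen (hq : 2 ≤ q) : ∑ i, cen q i = 0 := by
  obtain ⟨r, rfl⟩ : ∃ r, q = r + 1 := ⟨q - 1, by omega⟩
  simp [cen, Finset.sum_sub_distrib]
  field_simp
  ring

/-- The centred number of spins `0` on the observed level. -/
noncomputable def census (q : ℕ) : (n : ℕ) → Obs q n → ℝ
  | 0, y => cen q (show Fin q from y)
  | n + 1, ⟨_, ys⟩ => ∑ c, census q n (ys c)

lemma lik_nonneg' (hq : 2 ≤ q) (l0 : -(1 / ((q : ℝ) - 1)) ≤ lam) (l1 : lam ≤ 1) {ν : ℕ → ℝ}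
    (hν : ∀ k, 0 ≤ ν k) : ∀ (n : ℕ) (y : Obs q n) (i : Fin q), 0 ≤ lik q lam ν n y i := by
  intro n
  induction n with
  | zero => intro y i; simp only [lik]; split_ifs <;> norm_num
  | succ n ih =>
    rintro ⟨k, ys⟩ i
    exact mul_nonneg (hν k) (Finset.prod_nonneg fun c _ => Finset.sum_nonneg fun j _ =>
      mul_nonneg (potts_nonneg hq l0 l1 i j) (ih _ j))

/-- The recursive bound on the second moment of the census. -/
def secondBound (lam m M2 : ℝ) : ℕ → ℝ
  | 0 => 1
  | n + 1 => m * secondBound lam m M2 n + M2 * (lam ^ 2 * (m * lam) ^ (2 * n))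

lemma census_moments (hq : 2 ≤ q) (l0 : -(1 / ((q : ℝ) - 1)) ≤ lam) (l1 : lam ≤ 1) {ν : ℕ → ℝ}
    (hν : ∀ k, 0 ≤ ν k) (h1 : HasSum ν 1) {m M2 : ℝ} (hm : HasSum (fun k => ν k * k) m)
    (h2 : HasSum (fun k => ν k * (k : ℝ) ^ 2) M2) : ∀ (n : ℕ) (i : Fin q),
    HasSum (fun y => lik q lam ν n y i) 1 ∧
      HasSum (fun y => lik q lam ν n y i * census q n y) ((m * lam) ^ n * cen q i) ∧
      ∃ v, v ≤ secondBound lam m M2 n ∧
        HasSum (fun y => lik q lam ν n y i * census q n y ^ 2) v := by
  intro n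
  induction n with
  | zero =>
    intro i
    have key : ∀ f : Fin q → ℝ, HasSum (fun y : Fin q => (if y = i then 1 else 0) * f y) (f i) := by
      intro f
      have := hasSum_ite_eq i (f i)
      refine this.congr_fun fun y => ?_
      by_cases h : y = i <;> simp [h]
    refine ⟨?_, ?_, cen q i ^ 2, cen_sq_le hq i, ?_⟩
    · have := key fun _ => 1
      simp only [mul_one] at this
      exact this
    · rw [pow_zero, one_mul]
      exact key (cen q)
    · exact key fun y => cen q y ^ 2
  | succ n ih =>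
    intro i
    choose i1 i2 v hv i3 using ih
    have w0 := lik_nonneg' hq l0 l1 hν (q := q) (lam := lam) n
    let μ : Obs q n → ℝ := fun y => ∑ j, potts q lam i j * lik q lam ν n y j
    have μ1 : HasSum μ 1 := by
      have := hasSum_sum fun j (_ : j ∈ (Finset.univ : Finset (Fin q))) =>
        (i1 j).mul_left (potts q lam i j)
      simp only [mul_one, sum_potts hq] at this
      exact this
    set a : ℝ := lam * ((m * lam) ^ n * cen q i) with ha_def
    have μa : HasSum (fun y => μ y * census q n y) a := by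
      have := hasSum_sum fun j (_ : j ∈ (Finset.univ : Finset (Fin q))) =>
        (i2 j).mul_left (potts q lam i j)
      rw [sum_potts_mul, ← Finset.mul_sum, sum_cen hq, mul_zero, mul_zero, add_zero] at this
      refine this.congr_fun fun y => ?_
      simp only [μ, Finset.sum_mul, mul_assoc]
    set b : ℝ := ∑ j, potts q lam i j * v j with hb_def
    have μb : HasSum (fun y => μ y * census q n y ^ 2) b := by
      have := hasSum_sum fun j (_ : j ∈ (Finset.univ : Finset (Fin q))) =>
        (i3 j).mul_left (potts q lam i j)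
      refine this.congr_fun fun y => ?_
      simp only [μ, Finset.sum_mul, mul_assoc]
    have μ0 : ∀ y, 0 ≤ μ y := fun y => Finset.sum_nonneg fun j _ =>
      mul_nonneg (potts_nonneg hq l0 l1 i j) (w0 y j)
    have iid := iid_moments μ1 μa μb
    have m0 : 0 ≤ m := hm.nonneg fun k => mul_nonneg (hν k) (Nat.cast_nonneg k)
    have M0 : 0 ≤ M2 := h2.nonneg fun k => mul_nonneg (hν k) (sq_nonneg _)
    -- fibrewise sums
    have f1 : ∀ k, HasSum (fun ys : Fin k → Obs q n => ν k * ∏ c, μ (ys c)) (ν k) := fun k => by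
      simpa using (iid k).1.mul_left (ν k)
    have f2 : ∀ k, HasSum (fun ys : Fin k → Obs q n =>
        (ν k * ∏ c, μ (ys c)) * ∑ c, census q n (ys c)) (ν k * k * a) := fun k => by
      have := (iid k).2.1.mul_left (ν k)
      rw [← mul_assoc] at this
      exact this.congr_fun fun ys => by ring
    have f3 : ∀ k, HasSum (fun ys : Fin k → Obs q n =>
        (ν k * ∏ c, μ (ys c)) * (∑ c, census q n (ys c)) ^ 2)
        (ν k * k * (b - a ^ 2) + ν k * (k : ℝ) ^ 2 * a ^ 2) := fun k => by
      have := (iid k).2.2.mul_left (ν k)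
      rw [mul_add, ← mul_assoc, ← mul_assoc] at this
      exact this.congr_fun fun ys => by ring
    have g1 : HasSum (fun y : Σ k, Fin k → Obs q n => ν y.1 * ∏ c, μ (y.2 c)) 1 := by
      refine HasSum.sigma_of_hasSum h1 f1 ?_
      refine (summable_sigma_of_nonneg fun y => mul_nonneg (hν _)
        (Finset.prod_nonneg fun c _ => μ0 _)).mpr ⟨fun k => (f1 k).summable, ?_⟩
      exact h1.summable.congr fun k => (f1 k).tsum_eq.symm
    have t3 := (hm.mul_right (b - a ^ 2)).add (h2.mul_right (a ^ 2))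
    have g3 : HasSum (fun y : Σ k, Fin k → Obs q n =>
        (ν y.1 * ∏ c, μ (y.2 c)) * (∑ c, census q n (y.2 c)) ^ 2)
        (m * (b - a ^ 2) + M2 * a ^ 2) := by
      refine HasSum.sigma_of_hasSum t3 f3 ?_
      refine (summable_sigma_of_nonneg fun y => mul_nonneg (mul_nonneg (hν _)
        (Finset.prod_nonneg fun c _ => μ0 _)) (sq_nonneg _)).mpr ⟨fun k => (f3 k).summable, ?_⟩
      exact t3.summable.congr fun k => (f3 k).tsum_eq.symm
    have g2 : HasSum (fun y : Σ k, Fin k → Obs q n =>
        (ν y.1 * ∏ c, μ (y.2 c)) * ∑ c, census q n (y.2 c)) (m * a) := by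
      refine HasSum.sigma_of_hasSum (hm.mul_right a) f2 ?_
      exact summable_mul_of_sq (fun y => mul_nonneg (hν _)
        (Finset.prod_nonneg fun c _ => μ0 _)) g1.summable g3.summable
    refine ⟨g1, ?_, m * (b - a ^ 2) + M2 * a ^ 2, ?_, g3⟩
    · have e : (m * lam) ^ (n + 1) * cen q i = m * a := by rw [ha_def, pow_succ']; ring
      rw [e]
      exact g2
    · have hb : b ≤ secondBound lam m M2 n := by
        calc b ≤ ∑ j, potts q lam i j * secondBound lam m M2 n := Finset.sum_le_sum fun j _ =>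
              mul_le_mul_of_nonneg_left (hv j) (potts_nonneg hq l0 l1 i j)
          _ = secondBound lam m M2 n := by rw [← Finset.sum_mul, sum_potts hq, one_mul]
      have ha : a ^ 2 ≤ lam ^ 2 * (m * lam) ^ (2 * n) := by
        rw [ha_def, mul_pow, mul_pow, ← pow_mul, mul_comm n 2]
        have hw : 0 ≤ lam ^ 2 * (m * lam) ^ (2 * n) := by
          rw [pow_mul]; positivity
        calc lam ^ 2 * ((m * lam) ^ (2 * n) * cen q i ^ 2)
            = (lam ^ 2 * (m * lam) ^ (2 * n)) * cen q i ^ 2 := by ring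
          _ ≤ (lam ^ 2 * (m * lam) ^ (2 * n)) * 1 :=
              mul_le_mul_of_nonneg_left (cen_sq_le hq i) hw
          _ = _ := mul_one _
      have := mul_le_mul_of_nonneg_left hb m0
      have := mul_le_mul_of_nonneg_left ha M0
      have := mul_nonneg m0 (sq_nonneg a)
      simp only [secondBound]
      linarith

/-- Kesten–Stigum: `mλ² > 1` gives reconstruction, for offspring laws with a second moment. -/
theorem recon_of_ks (hq : 2 ≤ q) (l0 : -(1 / ((q : ℝ) - 1)) ≤ lam) (l1 : lam ≤ 1) {ν : ℕ → ℝ}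
    (hν : ∀ k, 0 ≤ ν k) (h1 : HasSum ν 1) {m M2 : ℝ} (hm : HasSum (fun k => ν k * k) m)
    (h2 : HasSum (fun k => ν k * (k : ℝ) ^ 2) M2) (hks : 1 < m * lam ^ 2) :
    ∃ c > 0, ∀ n, c ≤ advantage q lam ν n := by
  have hq' : (2 : ℝ) ≤ q := by exact_mod_cast hq
  have hm0 : 0 < m := by
    by_contra h
    have := mul_nonpos_of_nonpos_of_nonneg (not_lt.mp h) (sq_nonneg lam)
    linarith
  set B : ℝ := max 1 (M2 * lam ^ 2 / (m * (m * lam ^ 2 - 1))) with hB
  have hBpos : 0 < B := lt_of_lt_of_le one_pos (le_max_left _ _)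
  have hK : ∀ n, secondBound lam m M2 n ≤ B * (m * lam) ^ (2 * n) := by
    intro n
    induction n with
    | zero => simp [secondBound, hB]
    | succ n ih =>
      have hden : 0 < m * (m * lam ^ 2 - 1) := mul_pos hm0 (by linarith)
      have h := le_max_right 1 (M2 * lam ^ 2 / (m * (m * lam ^ 2 - 1)))
      rw [← hB, div_le_iff₀ hden] at h
      have hw : 0 ≤ (m * lam) ^ (2 * n) := by rw [pow_mul]; positivity
      have := mul_le_mul_of_nonneg_right h hw
      have := mul_le_mul_of_nonneg_left ih hm0.le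
      rw [show 2 * (n + 1) = 2 * n + 2 by ring, pow_add]
      simp only [secondBound]
      nlinarith
  set i0 : Fin q := ⟨0, by omega⟩ with hi0
  set e : ℝ := (1 - 1 / q) / q with he
  have hepos : 0 < e := by
    have : 1 / (q : ℝ) < 1 := by rw [div_lt_one (by linarith)]; linarith
    rw [he]
    exact div_pos (by linarith) (by linarith)
  refine ⟨e ^ 2 / (2 * B), by positivity, fun n => ?_⟩
  choose i1 i2 v hv i3 using census_moments hq l0 l1 hν h1 hm h2 n
  have w0 := lik_nonneg' hq l0 l1 hν (q := q) (lam := lam) n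
  let P : Obs q n → ℝ := fun y => ∑ j, lik q lam ν n y j / q
  let D : Fin q → Obs q n → ℝ := fun i y => lik q lam ν n y i / q - P y / q
  have hP : ∀ y, ∀ i, lik q lam ν n y i / q ≤ P y := fun y i =>
    Finset.single_le_sum (f := fun j => lik q lam ν n y j / q)
      (fun j _ => div_nonneg (w0 y j) (by positivity)) (Finset.mem_univ i)
  have hP0 : ∀ y, 0 ≤ P y := fun y =>
    Finset.sum_nonneg fun j _ => div_nonneg (w0 y j) (by positivity)
  have hD : ∀ y i, |D i y| ≤ P y := fun y i => by
    have := hP y i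
    have := div_nonneg (w0 y i) (by positivity : (0 : ℝ) ≤ q)
    have := div_le_self (hP0 y) (by linarith : (1 : ℝ) ≤ q)
    have := div_nonneg (hP0 y) (by positivity : (0 : ℝ) ≤ q)
    rw [abs_le]
    constructor <;> simp only [D] <;> linarith
  have sP : Summable P :=
    summable_sum (s := Finset.univ) (f := fun j y => lik q lam ν n y j / (q : ℝ)) fun j _ =>
      (i1 j).summable.div_const _
  have sDi : ∀ i, Summable fun y => |D i y| := fun i =>
    Summable.of_norm_bounded sP fun y => by rw [Real.norm_eq_abs, abs_abs]; exact hD y i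
  have ssum : Summable fun y : Obs q n => ∑ i, |D i y| :=
    summable_sum (s := Finset.univ) (f := fun i y => |D i y|) fun i _ => sDi i
  have sadv : Summable fun y : Obs q n => (1 / 2 : ℝ) * ∑ i, |D i y| := ssum.mul_left _
  have sD : Summable fun y => |D i0 y| := sDi i0
  have hadv : (∑' y, |D i0 y|) ≤ 2 * advantage q lam ν n := by
    have hadef : advantage q lam ν n = ∑' y, (1 / 2 : ℝ) * ∑ i, |D i y| := rfl
    rw [hadef, ← tsum_mul_left]
    refine Summable.tsum_le_tsum (fun y => ?_) sD (sadv.mul_left 2)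
    have := Finset.single_le_sum (f := fun i => |D i y|) (fun i _ => abs_nonneg (D i y))
      (Finset.mem_univ i0)
    linarith
  set w : ℝ := (m * lam) ^ n with hw
  have hw0 : w ≠ 0 := by
    have : lam ≠ 0 := fun h => by norm_num [h] at hks
    positivity
  -- correlation of the posterior with the census
  have hcorr : HasSum (fun y => D i0 y * census q n y) (e * w) := by
    have hPS : HasSum (fun y => P y * census q n y) 0 := by
      have := hasSum_sum fun j (_ : j ∈ (Finset.univ : Finset (Fin q))) =>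
        (i2 j).div_const (q : ℝ)
      rw [← Finset.sum_div, ← Finset.mul_sum, sum_cen hq, mul_zero, zero_div] at this
      refine this.congr_fun fun y => ?_
      simp only [P, Finset.sum_mul]
      exact Finset.sum_congr rfl fun j _ => by ring
    have := ((i2 i0).div_const (q : ℝ)).sub (hPS.div_const (q : ℝ))
    rw [show w * cen q i0 / q - 0 / (q : ℝ) = e * w by simp [cen, hi0, he]; ring] at this
    refine this.congr_fun fun y => ?_
    simp only [D]
    ring
  -- the second moment
  have hsq : HasSum (fun y => P y * census q n y ^ 2) ((∑ j, v j) / q) := by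
    have := hasSum_sum fun j (_ : j ∈ (Finset.univ : Finset (Fin q))) =>
      (i3 j).div_const (q : ℝ)
    rw [← Finset.sum_div] at this
    refine this.congr_fun fun y => ?_
    simp only [P, Finset.sum_mul]
    exact Finset.sum_congr rfl fun j _ => by ring
  have hv' : (∑ j, v j) / q ≤ B * w ^ 2 := by
    rw [div_le_iff₀ (by positivity), hw, ← pow_mul, mul_comm n 2]
    calc ∑ j, v j ≤ ∑ _j : Fin q, B * (m * lam) ^ (2 * n) :=
          Finset.sum_le_sum fun j _ => (hv j).trans (hK n)
      _ = _ := by simp; ring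
  set L : ℝ := B * |w| / e with hL
  have hLpos : 0 < L := by positivity
  have hbound : |e * w| ≤ L / 2 * (∑' y, |D i0 y|) + (∑ j, v j) / q / (2 * L) := by
    have hr := (sD.hasSum.mul_left (L / 2)).add (hsq.div_const (2 * L))
    have hp : ∀ y, |D i0 y * census q n y| ≤
        L / 2 * |D i0 y| + P y * census q n y ^ 2 / (2 * L) := by
      intro y
      have key : |census q n y| ≤ L / 2 + census q n y ^ 2 / (2 * L) := by
        rw [div_add_div _ _ two_ne_zero (by positivity), le_div_iff₀ (by positivity)]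
        nlinarith [sq_nonneg (|census q n y| - L), sq_abs (census q n y)]
      calc |D i0 y * census q n y| = |D i0 y| * |census q n y| := abs_mul _ _
        _ ≤ |D i0 y| * (L / 2 + census q n y ^ 2 / (2 * L)) :=
            mul_le_mul_of_nonneg_left key (abs_nonneg _)
        _ = L / 2 * |D i0 y| + |D i0 y| * (census q n y ^ 2 / (2 * L)) := by ring
        _ ≤ L / 2 * |D i0 y| + P y * (census q n y ^ 2 / (2 * L)) :=
            add_le_add_right (mul_le_mul_of_nonneg_right (hD y i0) (by positivity)) _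
        _ = _ := by ring
    rw [abs_le]
    constructor
    · rw [neg_le]
      exact hasSum_le (fun y => (neg_le_abs _).trans (hp y)) hcorr.neg hr
    · exact hasSum_le (fun y => (le_abs_self _).trans (hp y)) hcorr hr
  have h2' : (∑ j, v j) / q / (2 * L) ≤ e * |w| / 2 := by
    rw [div_le_iff₀ (by positivity)]
    refine hv'.trans (le_of_eq ?_)
    rw [hL, ← sq_abs w]
    field_simp
  rw [abs_mul, abs_of_pos hepos] at hbound
  have h3 : e * |w| / 2 ≤ B * |w| / e / 2 * (∑' y, |D i0 y|) := by rw [← hL]; linarith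
  have h4 : e ^ 2 / B ≤ ∑' y, |D i0 y| := by
    rw [div_le_iff₀ hBpos]
    have hwp : 0 < |w| := abs_pos.mpr hw0
    have : e * |w| / 2 * (2 * e) ≤ B * |w| / e / 2 * (∑' y, |D i0 y|) * (2 * e) :=
      mul_le_mul_of_nonneg_right h3 (by positivity)
    field_simp at this
    nlinarith
  rw [div_le_iff₀ (by positivity)]
  rw [div_le_iff₀ hBpos] at h4
  nlinarith

lemma regularLaw_nonneg (d k : ℕ) : 0 ≤ regularLaw d k := by
  unfold regularLaw; split_ifs <;> norm_num

lemma hasSum_regularLaw (d : ℕ) : HasSum (regularLaw d) 1 := by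
  unfold regularLaw; exact hasSum_ite_eq d 1

lemma hasSum_regularLaw_mul (d : ℕ) (f : ℕ → ℝ) :
    HasSum (fun k => regularLaw d k * f k) (f d) := by
  refine (hasSum_ite_eq d (f d)).congr_fun fun k => ?_
  by_cases h : k = d <;> simp [regularLaw, h]

lemma poissonLaw_nonneg {d : ℝ} (hd : 0 ≤ d) (k : ℕ) : 0 ≤ poissonLaw d k := by
  unfold poissonLaw; positivity

lemma hasSum_poissonLaw (d : ℝ) : HasSum (poissonLaw d) 1 := by
  have h : HasSum (fun k : ℕ => d ^ k / k.factorial) (Real.exp d) := by
    rw [Real.exp_eq_exp_ℝ]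
    exact NormedSpace.expSeries_div_hasSum_exp d
  have := h.mul_left (Real.exp (-d))
  rw [← Real.exp_add, neg_add_cancel, Real.exp_zero] at this
  refine this.congr_fun fun k => ?_
  unfold poissonLaw; ring

lemma poissonLaw_succ (d : ℝ) (k : ℕ) :
    poissonLaw d (k + 1) * ((k + 1 : ℕ) : ℝ) = d * poissonLaw d k := by
  unfold poissonLaw
  rw [Nat.factorial_succ]
  push_cast
  field_simp
  ring

lemma hasSum_poissonLaw_mean (d : ℝ) : HasSum (fun k => poissonLaw d k * k) d := by
  rw [← hasSum_nat_add_iff' 1]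
  simp only [poissonLaw_succ, Finset.sum_range_one, Nat.cast_zero, mul_zero, sub_zero]
  simpa using (hasSum_poissonLaw d).mul_left d

lemma hasSum_poissonLaw_sq (d : ℝ) :
    HasSum (fun k => poissonLaw d k * (k : ℝ) ^ 2) (d ^ 2 + d) := by
  rw [← hasSum_nat_add_iff' 1]
  simp only [Finset.sum_range_one, Nat.cast_zero, ne_eq, OfNat.ofNat_ne_zero, not_false_eq_true,
    zero_pow, mul_zero, sub_zero]
  have := ((hasSum_poissonLaw_mean d).add (hasSum_poissonLaw d)).mul_left d
  rw [show d * (d + 1) = d ^ 2 + d by ring] at this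
  refine this.congr_fun fun k => ?_
  rw [sq, ← mul_assoc, poissonLaw_succ]
  push_cast
  ring

/-- Reconstruction on the `d`-ary tree above the Kesten–Stigum bound. -/
theorem recon_regular (hq : 2 ≤ q) (l0 : -(1 / ((q : ℝ) - 1)) ≤ lam) (l1 : lam ≤ 1) {d : ℕ}
    (hks : 1 < (d : ℝ) * lam ^ 2) :
    ∃ c > 0, ∀ n, c ≤ advantage q lam (regularLaw d) n :=
  recon_of_ks hq l0 l1 (regularLaw_nonneg d) (hasSum_regularLaw d)
    (hasSum_regularLaw_mul d fun k => (k : ℝ)) (hasSum_regularLaw_mul d fun k => (k : ℝ) ^ 2) hks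

/-- Reconstruction on the Poisson tree above the Kesten–Stigum bound. -/
theorem recon_poisson (hq : 2 ≤ q) (l0 : -(1 / ((q : ℝ) - 1)) ≤ lam) (l1 : lam ≤ 1) {d : ℝ}
    (hd : 0 < d) (hks : 1 < d * lam ^ 2) :
    ∃ c > 0, ∀ n, c ≤ advantage q lam (poissonLaw d) n :=
  recon_of_ks hq l0 l1 (poissonLaw_nonneg hd.le) (hasSum_poissonLaw d) (hasSum_poissonLaw_mean d)
    (hasSum_poissonLaw_sq d) hks

end Vale.Agent.P154
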