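import Vale.Agent.P154.KestenStigum

/-!
Facts about the two offspring laws.
-/

namespace Vale.Agent.P154

lemma hasSum_regularLaw_mean (d : ℕ) : HasSum (fun k => regularLaw d k * k) (d : ℝ) := by
  refine (hasSum_ite_eq d (d : ℝ)).congr_fun fun k => ?_
  unfold regularLaw; split_ifs with h <;> simp [h]

lemma poissonLaw_two_pos {d : ℝ} (hd : 0 < d) : 0 < poissonLaw d 2 := by
  unfold poissonLaw; positivity

end Vale.Agent.P154
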