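import Vale.Agent.P154.Star

/-!
Independent powers of a channel and mixtures over a random number of children.
-/

namespace Vale.Agent.P154

lemma hasSum_prod_nonneg {α β : Type} {f : α → ℝ} {g : β → ℝ} {a b : ℝ} (hf : HasSum f a)
    (hg : HasSum g b) (f0 : ∀ x, 0 ≤ f x) (g0 : ∀ x, 0 ≤ g x) :
    HasSum (fun p : α × β => f p.1 * g p.2) (a * b) :=
  hf.mul hg (hf.summable.mul_of_nonneg hg.summable f0 g0)

lemma pw_facts (C : Chan) : ∀ k : ℕ, ∀ i : Fin 3,
    HasSum (fun y : Fin k → C.ι => ∏ c, C.V (y c) i) 1 := by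
  intro k
  induction k with
  | zero =>
    intro i
    have := hasSum_single (f := fun y : Fin 0 → C.ι => ∏ c, C.V (y c) i) Fin.elim0
      fun y hy => absurd (funext fun c => c.elim0) hy
    simpa only [Finset.univ_eq_empty, Finset.prod_empty] using this
  | succ k ih =>
    intro i
    have h : HasSum (fun p : C.ι × (Fin k → C.ι) => C.V p.1 i * ∏ c, C.V (p.2 c) i) (1 * 1) := by
      have hg : ∀ y : Fin k → C.ι, 0 ≤ ∏ c, C.V (y c) i := fun y =>
        Finset.prod_nonneg fun c _ => C.nonneg (y c) i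
      obtain ⟨g, hG⟩ : ∃ g, (fun y : Fin k → C.ι => ∏ c, C.V (y c) i) = g := ⟨_, rfl⟩
      rw [show (fun p : C.ι × (Fin k → C.ι) => C.V p.1 i * ∏ c, C.V (p.2 c) i) =
          fun p => C.V p.1 i * g p.2 by subst hG; rfl]
      exact hasSum_prod_nonneg (C.total i) (by subst hG; exact ih i) (fun y => C.nonneg y i)
        (by subst hG; exact hg)
    rw [one_mul] at h
    refine (Equiv.hasSum_iff (f := fun y : Fin (k + 1) → C.ι => ∏ c, C.V (y c) i)
      (Fin.consEquiv fun _ : Fin (k + 1) => C.ι)).mp ?_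
    refine h.congr_fun fun y => ?_
    simp only [Function.comp_apply, Fin.prod_univ_succ, Fin.consEquiv_apply, Fin.cons_zero,
      Fin.cons_succ]

/-- `k` independent observations. -/
noncomputable def Chan.pw (C : Chan) (k : ℕ) : Chan where
  ι := Fin k → C.ι
  V y i := ∏ c, C.V (y c) i
  nonneg _ _ := Finset.prod_nonneg fun c _ => C.nonneg _ _
  total := pw_facts C k
  sym π := by
    obtain ⟨e, he⟩ := C.sym π
    exact ⟨Equiv.piCongrRight fun _ => e, fun y i => by simp [he]⟩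

lemma Chan.pw_PZ (C : Chan) (h : C.PZ) (k : ℕ) : (C.pw k).PZ := by
  intro y
  by_cases hz : ∃ c, C.V (y c) = 0
  · obtain ⟨c, hc⟩ := hz
    exact Or.inr (funext fun i => Finset.prod_eq_zero (Finset.mem_univ c) (by simp [hc]))
  · push Not at hz
    exact Or.inl fun i => show 0 < ∏ c, C.V (y c) i from
      Finset.prod_pos fun c _ => ((h (y c)).resolve_right (hz c)) i

lemma Chan.E_pw_succ (C : Chan) (k : ℕ) (F : (Fin 3 → ℝ) → ℝ) :
    (C.pw (k + 1)).E F = (C.star (C.pw k)).E F := by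
  simp only [Chan.E]
  refine ((Fin.consEquiv fun _ : Fin (k + 1) => C.ι).tsum_eq _).symm.trans ?_
  refine tsum_congr fun y => congrArg F (funext fun i => ?_)
  simp [Chan.pw, Chan.star, Fin.prod_univ_succ]

lemma Chan.E_pw_zero (C : Chan) (F : (Fin 3 → ℝ) → ℝ) :
    (C.pw 0).E F = F fun _ => 1 := by
  show (∑' y : Fin 0 → C.ι, F (fun i => ∏ c, C.V (y c) i)) = _
  refine (tsum_eq_single (Fin.elim0 : Fin 0 → C.ι) fun y hy => ?_).trans ?_
  · exact absurd (funext fun c => c.elim0) hy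
  · simp

lemma Chan.E_pw_one (C : Chan) (F : (Fin 3 → ℝ) → ℝ) : (C.pw 1).E F = C.E F := by
  simp only [Chan.E]
  refine Eq.trans ?_ ((Equiv.funUnique (Fin 1) C.ι).tsum_eq (fun y => F (C.V y)))
  refine tsum_congr fun y => congrArg F (funext fun i => ?_)
  simp [Chan.pw, Equiv.funUnique]

/-- Bounds along powers. -/
theorem Chan.pw_bound (C : Chan) (h : C.PZ) (hp : 0 ≤ C.E fP) : ∀ k : ℕ,
    0 ≤ (C.pw k).E fP ∧ (C.pw k).E fB ≤ k * C.E fB ∧
      (2 ≤ k → (C.pw k).E fB ≤ k * C.E fB - 1 / 25 * C.E fB ^ 2) := by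
  intro k
  induction k with
  | zero =>
    refine ⟨?_, ?_, by omega⟩
    · rw [C.E_pw_zero]; norm_num [fP, fB, fL, pP, prTerm]
    · rw [C.E_pw_zero]; norm_num [fB, pP]
  | succ k ih =>
    obtain ⟨h1, h2⟩ := C.star_bound (C.pw k) h (C.pw_PZ h k) hp ih.1
    rw [← C.E_pw_succ] at h1 h2
    have hb := C.E_nonneg fun L hL => fB_nonneg hL
    have hk := (C.pw k).E_nonneg fun L hL => fB_nonneg hL
    refine ⟨h2, ?_, fun hk2 => ?_⟩
    · push_cast; nlinarith [ih.2.1, mul_nonneg hb hk]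
    · rcases Nat.eq_or_lt_of_le hk2 with he | hl
      · obtain rfl : k = 1 := by omega
        rw [C.E_pw_one] at h1
        push_cast at h1 ⊢; nlinarith
      · have := ih.2.2 (by omega)
        push_cast; nlinarith [mul_nonneg hb hk]

/-- Random number of independent observations. -/
noncomputable def Chan.node (C : Chan) (ν : ℕ → ℝ) (h0 : ∀ k, 0 ≤ ν k) (h1 : HasSum ν 1) :
    Chan where
  ι := Σ k, Fin k → C.ι
  V y i := ν y.1 * (C.pw y.1).V y.2 i
  nonneg y i := mul_nonneg (h0 _) ((C.pw y.1).nonneg _ i)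
  total i := by
    have hs : ∀ k, HasSum (fun y : Fin k → C.ι => ν k * (C.pw k).V y i) (ν k) := by
      intro k
      have := ((C.pw k).total i).mul_left (ν k)
      rwa [mul_one] at this
    refine HasSum.sigma_of_hasSum h1 hs ?_
    refine (summable_sigma_of_nonneg fun y => mul_nonneg (h0 _) ((C.pw y.1).nonneg _ i)).mpr
      ⟨fun k => (hs k).summable, ?_⟩
    exact h1.summable.congr fun k => (hs k).tsum_eq.symm
  sym π := by
    obtain ⟨e, he⟩ := C.sym π
    exact ⟨Equiv.sigmaCongrRight fun _ => Equiv.piCongrRight fun _ => e,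
      fun ⟨k, g⟩ i => show ν k * (∏ c, C.V (e (g c)) i) = ν k * ∏ c, C.V (g c) (π i) by
        rw [Finset.prod_congr rfl fun c _ => he (g c) i]⟩

lemma Chan.hasSum_node (C : Chan) (ν : ℕ → ℝ) (h0 : ∀ k, 0 ≤ ν k) (h1 : HasSum ν 1)
    {F : (Fin 3 → ℝ) → ℝ} (hF : Adm F) (hs : ∀ (c : ℝ) L, F (fun i => c * L i) = c * F L) :
    HasSum (fun k => ν k * (C.pw k).E F) ((C.node ν h0 h1).E F) := by
  have hsum : Summable fun y : (Σ k, Fin k → C.ι) => F ((C.node ν h0 h1).V y) :=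
    (C.node ν h0 h1).summable hF
  refine HasSum.sigma hsum.hasSum fun k => ?_
  have e : (fun y : Fin k → C.ι => F ((C.node ν h0 h1).V ⟨k, y⟩)) =
      fun y => ν k * F ((C.pw k).V y) := funext fun y => hs (ν k) _
  show HasSum (fun y : Fin k → C.ι => F ((C.node ν h0 h1).V ⟨k, y⟩)) _
  rw [e]
  exact ((C.pw k).summable hF).hasSum.mul_left (ν k)

theorem Chan.node_bound (C : Chan) (h : C.PZ) (hp : 0 ≤ C.E fP) (ν : ℕ → ℝ)
    (h0 : ∀ k, 0 ≤ ν k) (h1 : HasSum ν 1) {m : ℝ} (hm : HasSum (fun k => ν k * k) m)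
    {k₀ : ℕ} (hk₀ : 2 ≤ k₀) :
    0 ≤ (C.node ν h0 h1).E fP ∧
      (C.node ν h0 h1).E fB ≤ m * C.E fB - ν k₀ / 25 * C.E fB ^ 2 := by
  constructor
  · exact (C.hasSum_node ν h0 h1 adm_fP fP_smul).nonneg
      fun k => mul_nonneg (h0 k) (C.pw_bound h hp k).1
  · have hr := (hm.mul_right (C.E fB)).sub (hasSum_ite_eq k₀ (ν k₀ / 25 * C.E fB ^ 2))
    refine hasSum_le (fun k => ?_) (C.hasSum_node ν h0 h1 adm_fB fB_smul) hr
    split_ifs with hk
    · subst hk
      have := mul_le_mul_of_nonneg_left ((C.pw_bound h hp k).2.2 hk₀) (h0 k)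
      linarith
    · have := mul_le_mul_of_nonneg_left (C.pw_bound h hp k).2.1 (h0 k)
      linarith

end Vale.Agent.P154
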