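import Vale.Agent.P154.Algebra

/-!
The two key inequalities for the averaged star kernel, as functions of the invariants.
-/

namespace Vale.Agent.P154

/-- Numerator of one class. -/
noncomputable def clN (A T B S L : ℝ) : ℝ :=
  -(A * B) / 2 - (A * B) ^ 2 / 8 + (A + B) * (A * B) / 2 - A * S * (1 - A / 2)
    - B * T * (1 - B / 2) + (2 - A - B) * L

/-- Denominator of one class. -/
noncomputable def clD (A B L : ℝ) : ℝ := 1 - 3 / 4 * (A * B) + L

theorem scalar_main {A T B S L L' : ℝ} (hd : InDom (2 * A) (4 * T)) (hd' : InDom (2 * B) (4 * S))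
    (hsum : L + L' = T * S)
    (hprod : L * L' = (T * S / 2) ^ 2 - (A ^ 3 / 2 - T ^ 2) * (B ^ 3 / 2 - S ^ 2) / 4)
    (hD : 0 < clD A B L) (hD' : 0 < clD A B L')
    (hu : 0 < 8 - 3 * A - T) (hw : 0 < 8 - 3 * B - S) :
    let K := (clN A T B S L / clD A B L + clN A T B S L' / clD A B L') / 2
    let M := (4 * T - A * T - A ^ 2) / (8 - 3 * A - T) * (3 / 2 * B - S)
      + (4 * S - B * S - B ^ 2) / (8 - 3 * B - S) * (3 / 2 * A - T)
    K + 1 / 25 * (A * B) + 13 / 16 * M ≤ 0 ∧
      0 ≤ K + M + 3 / 4 * ((8 * A - 4 * T - 2 * A ^ 2) / (8 - 3 * A - T)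
        * ((8 * B - 4 * S - 2 * B ^ 2) / (8 - 3 * B - S))) := by
  intro K M
  have hpos : 0 < clD A B L * clD A B L' * ((8 - 3 * A - T) * (8 - 3 * B - S)) := by positivity
  have hK : K * (clD A B L * clD A B L') =
      (clN A T B S L * clD A B L' + clN A T B S L' * clD A B L) / 2 := by
    simp only [K]; field_simp
  have hM : M * ((8 - 3 * A - T) * (8 - 3 * B - S)) =
      (4 * T - A * T - A ^ 2) * (3 / 2 * B - S) * (8 - 3 * B - S)
      + (4 * S - B * S - B ^ 2) * (3 / 2 * A - T) * (8 - 3 * A - T) := by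
    have c1 := div_mul_cancel₀ (4 * T - A * T - A ^ 2) hu.ne'
    have c2 := div_mul_cancel₀ (4 * S - B * S - B ^ 2) hw.ne'
    simp only [M]
    linear_combination ((3 / 2 * B - S) * (8 - 3 * B - S)) * c1
      + ((3 / 2 * A - T) * (8 - 3 * A - T)) * c2
  have hden : clD A B L * clD A B L' = (1 - 3 / 4 * (A * B) + T * S / 2) ^ 2
      - (A ^ 3 / 2 - T ^ 2) * (B ^ 3 / 2 - S ^ 2) / 4 := by
    simp only [clD]; linear_combination (1 - 3 / 4 * (A * B)) * hsum + hprod
  have hnum : (clN A T B S L * clD A B L' + clN A T B S L' * clD A B L) / 2 =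
      (-(A * B) / 2 - (A * B) ^ 2 / 8 + (A + B) * (A * B) / 2 - A * S * (1 - A / 2)
        - B * T * (1 - B / 2) + (2 - A - B) * (T * S / 2)) * (1 - 3 / 4 * (A * B) + T * S / 2)
      - (2 - A - B) * ((A ^ 3 / 2 - T ^ 2) * (B ^ 3 / 2 - S ^ 2) / 4) := by
    simp only [clN, clD]
    linear_combination ((-(A * B) / 2 - (A * B) ^ 2 / 8 + (A + B) * (A * B) / 2
      - A * S * (1 - A / 2) - B * T * (1 - B / 2)) / 2
      + (2 - A - B) * (1 - 3 / 4 * (A * B)) / 2) * hsum + (2 - A - B) * hprod
  set N0 := (clN A T B S L * clD A B L' + clN A T B S L' * clD A B L) / 2 with hN0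
  set den := clD A B L * clD A B L' with hdendef
  set U := (8 - 3 * A - T) * (8 - 3 * B - S) with hUdef
  constructor
  · have hI := certI_nonneg hd hd'
    have key : certI (fun n => (n : ℝ)) (2 * A) (4 * T) (2 * B) (4 * S) =
        52428800 * (-(den * U) * (K + 1 / 25 * (A * B) + 13 / 16 * M)) := by
      have e : den * U * (K + 1 / 25 * (A * B) + 13 / 16 * M) =
          N0 * U + 1 / 25 * (A * B) * den * U + 13 / 16 * den * (M * U) := by
        rw [← hK]; ring
      rw [neg_mul, e, hM, hnum, hden, hUdef]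
      simp only [certI, nS, denS, mS, uS, cS, dS, jS, duS, pS, omS]
      push_cast
      ring
    rw [key] at hI
    generalize den * U = W at hpos hI
    by_contra hneg
    push Not at hneg
    have := mul_pos hpos hneg
    linarith
  · have hI := certII_nonneg hd hd'
    set L3 := (8 * A - 4 * T - 2 * A ^ 2) / (8 - 3 * A - T)
        * ((8 * B - 4 * S - 2 * B ^ 2) / (8 - 3 * B - S)) with hL3
    have hL : L3 * U = (8 * A - 4 * T - 2 * A ^ 2) * (8 * B - 4 * S - 2 * B ^ 2) := by
      have c1 := div_mul_cancel₀ (8 * A - 4 * T - 2 * A ^ 2) hu.ne'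
      have c2 := div_mul_cancel₀ (8 * B - 4 * S - 2 * B ^ 2) hw.ne'
      rw [hL3, hUdef]
      linear_combination ((8 * B - 4 * S - 2 * B ^ 2) / (8 - 3 * B - S) * (8 - 3 * B - S)) * c1
        + (8 * A - 4 * T - 2 * A ^ 2) * c2
    have key : certII (fun n => (n : ℝ)) (2 * A) (4 * T) (2 * B) (4 * S) =
        131072 * (den * U * (K + M + 3 / 4 * L3)) := by
      have e : den * U * (K + M + 3 / 4 * L3) =
          N0 * U + den * (M * U) + 3 / 4 * den * (L3 * U) := by
        rw [← hK]; ring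
      rw [e, hM, hL, hnum, hden, hUdef]
      simp only [certII, nS, denS, mS, uS, cS, dS, jS, duS, pS, omS, lS]
      push_cast
      ring
    rw [key] at hI
    generalize den * U = W at hpos hI
    by_contra hneg
    push Not at hneg
    have := mul_neg_of_pos_of_neg hpos hneg
    linarith

end Vale.Agent.P154
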