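import Vale.Agent.P154.Chan

/-!
Combination of two symmetric channels: subadditivity of the chi-square functional with a strict
gain, and closure of the invariant.
-/

namespace Vale.Agent.P154

/-- The summand of `avg6`. -/
noncomputable def prv (L M : Fin 3 → ℝ) (π : Equiv.Perm (Fin 3)) : Fin 3 → ℝ :=
  fun i => L i * M (π i)

lemma Chan.summable_pair (A B : Chan) {F G : (Fin 3 → ℝ) → ℝ} (hF : Adm F) (hG : Adm G) :
    Summable fun y : A.ι × B.ι => F (A.V y.1) * G (B.V y.2) :=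
  summable_mul_of_summable_norm (A.summable hF).norm (B.summable hG).norm

lemma Chan.tsum_pair (A B : Chan) {F G : (Fin 3 → ℝ) → ℝ} (hF : Adm F) (hG : Adm G) :
    (∑' y : A.ι × B.ι, F (A.V y.1) * G (B.V y.2)) = A.E F * B.E G :=
  ((A.summable hF).tsum_mul_tsum (B.summable hG) (A.summable_pair B hF hG)).symm

/-- Symmetrisation of the second factor. -/
lemma Chan.sum_perm (A B : Chan) {F : (Fin 3 → ℝ) → ℝ} (hF : Adm F) (π : Equiv.Perm (Fin 3)) :
    Summable (fun y : A.ι × B.ι => F (prv (A.V y.1) (B.V y.2) π)) ∧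
      (∑' y : A.ι × B.ι, F (prv (A.V y.1) (B.V y.2) π)) = (A.star B).E F := by
  obtain ⟨e, he⟩ := B.sym π
  have h : (fun y : A.ι × B.ι => F (prv (A.V y.1) (B.V y.2) π)) =
      (fun y : (A.star B).ι => F ((A.star B).V y)) ∘ ((Equiv.refl A.ι).prodCongr e) := by
    funext y
    simp only [Function.comp_apply, Chan.star, Equiv.prodCongr_apply, Prod.map_fst, Prod.map_snd,
      Equiv.refl_apply, he]
    rfl
  constructor
  · rw [h]
    exact ((Equiv.refl A.ι).prodCongr e).summable_iff.mpr ((A.star B).summable hF)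
  · rw [h]
    exact ((Equiv.refl A.ι).prodCongr e).tsum_eq (fun y => F ((A.star B).V y))

/-- The six rearrangements, in the order used by `avg6`. -/
def perm6 : Fin 6 → Equiv.Perm (Fin 3) :=
  ![1, finRotate 3, (finRotate 3).symm, Equiv.swap 0 1, Equiv.swap 1 2, Equiv.swap 0 2]

lemma avg6_eq (F : (Fin 3 → ℝ) → ℝ) (L M : Fin 3 → ℝ) :
    avg6 F L M = (∑ k : Fin 6, F (prv L M (perm6 k))) / 6 := by
  have e : ∀ (a b c : Fin 3) (π : Equiv.Perm (Fin 3)), π 0 = a → π 1 = b → π 2 = c →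
      prv L M π = ![L 0 * M a, L 1 * M b, L 2 * M c] := by
    intro a b c π ha hb hc
    funext i
    fin_cases i <;> simp [prv, ha, hb, hc]
  simp only [Fin.sum_univ_six]
  rw [e 0 1 2 (perm6 0) (by decide) (by decide) (by decide),
    e 1 2 0 (perm6 1) (by decide) (by decide) (by decide),
    e 2 0 1 (perm6 2) (by decide) (by decide) (by decide),
    e 1 0 2 (perm6 3) (by decide) (by decide) (by decide),
    e 0 2 1 (perm6 4) (by decide) (by decide) (by decide),
    e 2 1 0 (perm6 5) (by decide) (by decide) (by decide)]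
  rfl

lemma Chan.hasSum_avg6 (A B : Chan) {F : (Fin 3 → ℝ) → ℝ} (hF : Adm F) :
    HasSum (fun y : A.ι × B.ι => avg6 F (A.V y.1) (B.V y.2)) ((A.star B).E F) := by
  simp only [avg6_eq]
  have hk : ∀ k : Fin 6, HasSum (fun y : A.ι × B.ι => F (prv (A.V y.1) (B.V y.2) (perm6 k)))
      ((A.star B).E F) := by
    intro k
    obtain ⟨h1, h2⟩ := A.sum_perm B hF (perm6 k)
    have := h1.hasSum
    rwa [h2] at this
  have := (hasSum_sum fun k (_ : k ∈ (Finset.univ : Finset (Fin 6))) => hk k).div_const 6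
  simpa using this

lemma kernel_ext (L M : Fin 3 → ℝ) (hL : (∀ i, 0 < L i) ∨ L = 0) (hM : (∀ i, 0 < M i) ∨ M = 0) :
    avg6 fB L M ≤ fB L * pP M + pP L * fB M
        - 13 / 16 * (fP L * fG M + fG L * fP M) - 1 / 25 * (fB L * fB M) ∧
      fP L * fH M + fH L * fP M ≤ avg6 fP L M := by
  rcases hL with hL | rfl
  · rcases hM with hM | rfl
    · exact kernel_main L M hL hM
    · simp [avg6, fB, fP, fL, fG, fH, pP, prTerm]
  · simp [avg6, fB, fP, fL, fG, fH, pP, prTerm]

lemma Chan.E_pP (C : Chan) : C.E pP = 1 := C.hasSum_pP.tsum_eq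

lemma Chan.E_nonneg (C : Chan) {F : (Fin 3 → ℝ) → ℝ}
    (h : ∀ L : Fin 3 → ℝ, (∀ i, 0 ≤ L i) → 0 ≤ F L) : 0 ≤ C.E F :=
  tsum_nonneg fun y => h _ (C.nonneg y)

/-- The main inequality for combining two channels. -/
theorem Chan.star_bound (A B : Chan) (hA : A.PZ) (hB : B.PZ) (pA : 0 ≤ A.E fP)
    (pB : 0 ≤ B.E fP) :
    (A.star B).E fB ≤ A.E fB + B.E fB - 1 / 25 * (A.E fB * B.E fB) ∧ 0 ≤ (A.star B).E fP := by
  have hp : ∀ {F G : (Fin 3 → ℝ) → ℝ}, Adm F → Adm G →
      HasSum (fun y : A.ι × B.ι => F (A.V y.1) * G (B.V y.2)) (A.E F * B.E G) := by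
    intro F G hF hG
    have := (A.summable_pair B hF hG).hasSum
    rwa [A.tsum_pair B hF hG] at this
  have gA := A.E_nonneg (fun L h => (fG_bounds h).1)
  have gB := B.E_nonneg (fun L h => (fG_bounds h).1)
  have hA' := A.E_nonneg (fun L h => (fH_bounds h).1)
  have hB' := B.E_nonneg (fun L h => (fH_bounds h).1)
  constructor
  · have h1 := (((hp adm_fB adm_pP).add (hp adm_pP adm_fB)).sub
      (((hp adm_fP adm_fG).add (hp adm_fG adm_fP)).mul_left (13 / 16))).sub
      ((hp adm_fB adm_fB).mul_left (1 / 25))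
    have hk : ∀ y : A.ι × B.ι, avg6 fB (A.V y.1) (B.V y.2) ≤
        fB (A.V y.1) * pP (B.V y.2) + pP (A.V y.1) * fB (B.V y.2)
          - 13 / 16 * (fP (A.V y.1) * fG (B.V y.2) + fG (A.V y.1) * fP (B.V y.2))
          - 1 / 25 * (fB (A.V y.1) * fB (B.V y.2)) :=
      fun y => (kernel_ext (A.V y.1) (B.V y.2) (hA y.1) (hB y.2)).1
    have h2 := hasSum_le hk (A.hasSum_avg6 B adm_fB) h1
    rw [A.E_pP, B.E_pP, mul_one, one_mul] at h2
    have := mul_nonneg pA gB
    have := mul_nonneg gA pB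
    linarith
  · have h1 := (hp adm_fP adm_fH).add (hp adm_fH adm_fP)
    have hk : ∀ y : A.ι × B.ι, fP (A.V y.1) * fH (B.V y.2) + fH (A.V y.1) * fP (B.V y.2) ≤
        avg6 fP (A.V y.1) (B.V y.2) :=
      fun y => (kernel_ext (A.V y.1) (B.V y.2) (hA y.1) (hB y.2)).2
    have h2 := hasSum_le hk h1 (A.hasSum_avg6 B adm_fP)
    have := mul_nonneg pA hB'
    have := mul_nonneg hA' pB
    linarith

end Vale.Agent.P154
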